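import Mathlib.Algebra.Algebra.Basic
import Mathlib.Tactic.LinearCombination
import Mathlib.Tactic.Module
import Mathlib.Tactic.NoncommRing

/-!
The inverse of the derivative of a cubic polynomial.
-/

namespace Vale.Agent.P011.E6W

/-- The discriminant of the polynomial `X³ - p₂ X² - p₁ X - p₀`. -/
def dsc {F : Type} [Field F] (p₂ p₁ p₀ : F) : F :=
  p₂ ^ 2 * p₁ ^ 2 + 4 * p₁ ^ 3 - 4 * p₂ ^ 3 * p₀ - 18 * p₂ * p₁ * p₀ - 27 * p₀ ^ 2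

namespace H541

variable {F R : Type} [Field F] [Ring R] [Algebra F R]

/-- The derivative at `z`. -/
def fd (p₂ p₁ : F) (z : R) : R := (3 : F) • (z * z) - (2 * p₂) • z - p₁ • (1 : R)

/-- The multiple of the inverse of the derivative at `z`. -/
def gd (p₂ p₁ p₀ : F) (z : R) : R :=
  (p₁ * p₂ ^ 2 + 4 * p₁ ^ 2 - 3 * p₀ * p₂) • (1 : R) + (2 * p₂ ^ 3 + 7 * p₁ * p₂ + 9 * p₀) • z +
    (-(2 * p₂ ^ 2) - 6 * p₁) • (z * z)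

theorem fd_mul_gd {p₂ p₁ p₀ : F} {z : R} (hz : z * z * z = p₂ • (z * z) + p₁ • z + p₀ • (1 : R)) :
    fd p₂ p₁ z * gd p₂ p₁ p₀ z = (-dsc p₂ p₁ p₀) • (1 : R) := by
  have h4 : z * z * (z * z) = (p₂ ^ 2 + p₁) • (z * z) + (p₂ * p₁ + p₀) • z + (p₂ * p₀) • (1 : R) := by
    rw [← mul_assoc (z * z), hz, add_mul, add_mul, smul_mul_assoc, smul_mul_assoc, smul_mul_assoc,
      one_mul, hz]
    module
  have h3' : z * (z * z) = p₂ • (z * z) + p₁ • z + p₀ • (1 : R) := by rw [← mul_assoc, hz]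
  rw [fd, gd]
  simp only [mul_add, sub_mul, smul_mul_assoc, mul_smul_comm, one_mul, mul_one, h4, hz, h3']
  rw [dsc]
  module

theorem fd_comm {p₂ p₁ : F} {z w : R} (h : w * z = z * w) : w * fd p₂ p₁ z = fd p₂ p₁ z * w := by
  rw [fd, mul_sub, mul_sub, sub_mul, sub_mul, mul_smul_comm, mul_smul_comm, mul_smul_comm,
    smul_mul_assoc, smul_mul_assoc, smul_mul_assoc, mul_one, one_mul, h, ← mul_assoc, h, mul_assoc,
    h, ← mul_assoc]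

/-- The commutation with the quadratic elements. -/
theorem exists_quad {p₂ p₁ p₀ : F} {z : R}
    (hz : z * z * z = p₂ • (z * z) + p₁ • z + p₀ • (1 : R)) (hd : dsc p₂ p₁ p₀ ≠ 0) {w : R}
    {u₀ u₁ u₂ : F} (h : w * fd p₂ p₁ z = u₀ • (1 : R) + u₁ • z + u₂ • (z * z)) :
    ∃ t₀ t₁ t₂ : F, w = t₀ • (1 : R) + t₁ • z + t₂ • (z * z) := by
  have h1 : w * (fd p₂ p₁ z * gd p₂ p₁ p₀ z) =
      (u₀ • (1 : R) + u₁ • z + u₂ • (z * z)) * gd p₂ p₁ p₀ z := by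
    rw [← mul_assoc, h]
  rw [fd_mul_gd hz, mul_smul_comm, mul_one] at h1
  have h4 : z * z * (z * z) = (p₂ ^ 2 + p₁) • (z * z) + (p₂ * p₁ + p₀) • z + (p₂ * p₀) • (1 : R) := by
    rw [← mul_assoc (z * z), hz, add_mul, add_mul, smul_mul_assoc, smul_mul_assoc, smul_mul_assoc,
      one_mul, hz]
    module
  have h3' : z * (z * z) = p₂ • (z * z) + p₁ • z + p₀ • (1 : R) := by rw [← mul_assoc, hz]
  obtain ⟨g₀, g₁, g₂, hg⟩ : ∃ g₀ g₁ g₂ : F, gd p₂ p₁ p₀ z = g₀ • (1 : R) + g₁ • z + g₂ • (z * z) :=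
    ⟨_, _, _, rfl⟩
  rw [hg] at h1
  simp only [mul_add, add_mul, smul_mul_assoc, mul_smul_comm, one_mul, mul_one, h4, hz, h3'] at h1
  have h5 : w = (-dsc p₂ p₁ p₀)⁻¹ • ((-dsc p₂ p₁ p₀) • w) := by
    rw [smul_smul, inv_mul_cancel₀ (neg_ne_zero.mpr hd), one_smul]
  rw [h5, h1]
  refine ⟨(-dsc p₂ p₁ p₀)⁻¹ * (u₀ * g₀ + u₁ * g₂ * p₀ + u₂ * g₁ * p₀ + u₂ * g₂ * (p₂ * p₀)),
    (-dsc p₂ p₁ p₀)⁻¹ * (u₀ * g₁ + u₁ * g₀ + u₁ * g₂ * p₁ + u₂ * g₁ * p₁ +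
      u₂ * g₂ * (p₂ * p₁ + p₀)),
    (-dsc p₂ p₁ p₀)⁻¹ * (u₀ * g₂ + u₁ * g₁ + u₂ * g₀ + u₁ * g₂ * p₂ + u₂ * g₁ * p₂ +
      u₂ * g₂ * (p₂ ^ 2 + p₁)), ?_⟩
  module

end H541

end Vale.Agent.P011.E6W
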