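import Vale.Agent.P011.E6W.H541.Tdiv
import Vale.Agent.P011.E6W.Defs

/-!
The algebra `D ⊗ Q` has no place in `Tdiv`, if `Q` contains the square root of an element which is
a square at the places where `D` is a division algebra.
-/

open Module NumberField IsDedekindDomain

set_option linter.unusedSectionVars false

namespace Vale.Agent.P011.E6W.H541

open Vale.Agent.P011.MPQ hiding mat
open Vale.Agent.P011.Arith
open Vale.Agent.P011.D4 Vale.Agent.P011.D4.Oct Vale.Agent.P011.E6
open Vale.Agent.P011.E6O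
open Vale.Agent.P011.E6I (MQ toMQ u0 sc)
open Vale.Agent.P011.E6W.H183
open Vale.Agent.P011.One (Tdiv)

variable {k E : Type} [Field k] [NumberField k] [Field E] [NumberField E] [Algebra k E]
  {ρ σ : E ≃ₐ[k] E} {lam : Eˣ} {g : Fin 3 → Eˣ} {th s : E} {kap a b c a' b' c' : kˣ}

/-- The cyclic algebra with unitary involution. -/
noncomputable def datW (W : WH ρ σ lam g th s kap a b c) :
    letI := starK (ρ := ρ) W.rel.σ2 W.rel.comm
    Dat (KK ρ) E :=
  letI := starK (ρ := ρ) W.rel.σ2 W.rel.comm
  { ρ := rhoK ρ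
    s := (σ : E ≃+* E)
    lam := unK W.ρlam
    G := g
    c := s
    h3 := finrank_KK W.hρ W.ρ3
    ρ1 := by
      by_contra h
      push Not at h
      exact W.hρ (AlgEquiv.ext h)
    ρ3 := W.ρ3
    fix := fun x hx => ⟨mkK (ρ := ρ) hx, rfl⟩
    hN := W.hlam
    ss := W.rel.σ2
    sρ := fun x => (W.rel.comm x).symm
    sK := fun x => rfl
    sG := W.rel.σg
    G1 := W.rel.g1
    G2 := W.rel.g2
    G0 := by
      change (g 0 : E) = lam * σ lam * (s * ρ (g 2))
      rw [W.rel.g0]
      ring }

/-- The embedding of the cyclic algebra in `D ⊗ Q`. -/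
noncomputable def embW (W : WH ρ σ lam g th s kap a b c) (W' : WH ρ σ lam g th s kap a' b' c') :
    letI := starK (ρ := ρ) W.rel.σ2 W.rel.comm
    (datW W).D →ₐ[KK ρ] BB W'.HI :=
  letI := starK (ρ := ρ) W.rel.σ2 W.rel.comm
  { toFun := fun x => ofM W'.HI (m := toMQ ((datW W).f x)) (E6I.inD_toMQ.2 ((datW W).f_mem x))
    map_one' := by
      apply toM_injective W'.HI
      exact E6I.toMQ_one
    map_mul' := fun x y => by
      apply toM_injective W'.HI
      exact (congrArg toMQ (map_mul (datW W).f x y)).trans (E6I.toMQ_mul _ _)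
    map_zero' := by
      apply toM_injective W'.HI
      exact (congrArg toMQ (map_zero (datW W).f)).trans E6I.toMQ_zero
    map_add' := fun x y => by
      apply toM_injective W'.HI
      exact (congrArg toMQ (map_add (datW W).f x y)).trans (E6I.toMQ_add _ _)
    commutes' := fun t => by
      apply toM_injective W'.HI
      change toMQ ((datW W).f (algebraMap _ _ t)) = H183.toM W'.HI (algebraMap (KK ρ) _ t)
      rw [AlgHom.commutes, AlgHom.commutes]
      apply Matrix.ext
      intro i j
      rw [E6I.toMQ_apply, Matrix.algebraMap_matrix_apply, Matrix.algebraMap_matrix_apply]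
      split_ifs
      · exact (IsScalarTower.algebraMap_apply (KK ρ) E _ t).symm
      · exact QuaternionAlgebra.coe_zero }

/-- The square root of `a` in the algebra `D ⊗ Q`. -/
noncomputable def iW (W : WH ρ σ lam g th s kap a b c) : BW W :=
  ofW W (m := sc (k := KK ρ) E (a := up (KK ρ) a) (b := up (KK ρ) b) ⟨0, 1, 0, 0⟩)
    (E6I.sc_mem (ρ := rhoK ρ) (lam := unK W.ρlam) _)

theorem toW_iW (W : WH ρ σ lam g th s kap a b c) :
    toW W (iW W) = Matrix.diagonal fun _ => (⟨0, 1, 0, 0⟩ : Qt (up E a) (up E b)) := by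
  change Matrix.diagonal (fun _ => qup E (⟨0, 1, 0, 0⟩ : Qt (up (KK ρ) a) (up (KK ρ) b))) = _
  congr 1

theorem qi_sq (α β : Eˣ) : (⟨0, 1, 0, 0⟩ * ⟨0, 1, 0, 0⟩ : Qt α β) = (α : E) • (1 : Qt α β) := by
  rw [QuaternionAlgebra.mk_mul_mk]
  apply QuaternionAlgebra.ext <;> simp

theorem iW_sq (W : WH ρ σ lam g th s kap a b c) :
    iW W * iW W = algebraMap (KW W) (BW W) (algebraMap k (KW W) a) := by
  apply toW_injective W
  rw [map_mul, toW_iW, Matrix.diagonal_mul_diagonal, Algebra.algebraMap_eq_smul_one, toW_smul,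
    map_one]
  have h : algebraMap (KW W) E (algebraMap k (KW W) a) = up E a :=
    (IsScalarTower.algebraMap_apply k (KW W) E _).symm
  rw [h]
  apply Matrix.ext
  intro i j
  rw [Matrix.smul_apply, Matrix.diagonal_apply, Matrix.one_apply]
  split_ifs
  · exact qi_sq _ _
  · rw [smul_zero]

theorem iW_ne (W : WH ρ σ lam g th s kap a b c) (t : KW W) : algebraMap (KW W) (BW W) t ≠ iW W := by
  intro h
  have h1 := congrArg (toW W) h
  rw [toW_iW, Algebra.algebraMap_eq_smul_one, toW_smul, map_one] at h1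
  have h2 := congrFun (congrFun h1 0) 0
  have h3 := congrArg QuaternionAlgebra.imI h2
  simp at h3

/-- **There is a finite set `T` of primes of `k` such that `D ⊗ Q` has no place in `Tdiv` as soon as
`a` is a square at the primes in `T`.** -/
theorem exists_TW (W : WH ρ σ lam g th s kap a b c) :
    ∃ T : Set (HeightOneSpectrum (𝓞 k)), T.Finite ∧ ∀ (a' b' c' : kˣ)
      (W' : WH ρ σ lam g th s kap a' b' c'), (∀ v ∈ T, a' ∈ LS (v.valuation k)) →
        Tdiv k (KW W') (BW W') = ∅ := by
  let _ := starK (ρ := ρ) W.rel.σ2 W.rel.comm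
  obtain ⟨T, hT, h⟩ := exists_T (k := k) (K := KK ρ) (D := (datW W).D) (n := 3) (by norm_num)
    (datW W).finrank_D
  refine ⟨T, hT, fun a' b' c' W' h1 => ?_⟩
  exact tdiv_empty (K := KK ρ) (B := BB W'.HI) (embW W W') (iW_sq W') (iW_ne W')
    fun v hv => h1 v (h v hv)

end Vale.Agent.P011.E6W.H541
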