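import Vale.Agent.P011.E6W.Defs
import Vale.Agent.P011.D4.NTS

/-!
The standard symmetric element of the cyclic algebra.
-/

open NumberField Matrix

namespace Vale.Agent.P011.E6W

open Vale.Agent.P011.MPQ hiding mat
open Vale.Agent.P011.D4 Vale.Agent.P011.D4.Oct Vale.Agent.P011.E6
open Vale.Agent.P011.E6O (GO Res InD InD0 um)
open Vale.Agent.P011.E6W.H183 (WH Rel exists_kW)

variable {k E : Type} [Field k] [Field E] [Algebra k E]
  {ρ σ : E ≃ₐ[k] E} {lam : Eˣ} {g : Fin 3 → Eˣ} {th s : E} {kap a b c : kˣ}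

namespace H541

/-- A real place at which a division algebra of octonions is definite. -/
theorem exists_real [NumberField E] {a b c : Eˣ} (h : Division a b c) :
    ∃ w : E →+* ℝ, w a < 0 ∧ w b < 0 ∧ w c < 0 := by
  by_contra hcon
  push Not at hcon
  obtain ⟨q, hq⟩ := exists_nrd (a := a) (b := b) c fun w ha hb =>
    lt_of_le_of_ne (hcon w ha hb) ((map_ne_zero w).mpr c.ne_zero).symm
  have h1 : Oct.norm (⟨q, 1⟩ : Oct a b c) = 0 := by
    rw [Oct.norm, hq]
    have : nrd (1 : Qt a b) = 1 := by simp [nrd]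
    change (c : E) - (c : E) * nrd (1 : Qt a b) = 0
    rw [this, mul_one, sub_self]
  have h2 := h _ h1
  have h3 : (1 : Qt a b) = 0 := congrArg Oct.snd h2
  exact one_ne_zero h3

section zero

variable {F : Type} [Field F] (p q r t u v : F)

/-- A matrix with zero diagonal. -/
def zd : Matrix (Fin 3) (Fin 3) F := !![0, p, q; r, 0, t; u, v, 0]

/-- The Krylov matrix. -/
def kry : Matrix (Fin 3) (Fin 3) F := !![1, 0, p * r + q * u; 0, r, t * u; 0, u, v * r]

/-- The Bezout matrix. -/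
def bez (q₁ : F) : Matrix (Fin 3) (Fin 3) F := !![-q₁, 0, 1; 0, 1, 0; 1, 0, 0]

/-- The companion matrix. -/
def cmpM (q₁ q₀ : F) : Matrix (Fin 3) (Fin 3) F := !![0, 0, q₀; 1, 0, q₁; 0, 1, 0]

theorem zd_cube : zd p q r t u v ^ 3 =
    (p * r + q * u + t * v) • zd p q r t u v + (p * t * u + q * r * v) • 1 := by
  ext i j
  fin_cases i <;> fin_cases j <;>
    simp [zd, pow_succ, Matrix.mul_apply, Fin.sum_univ_three] <;> ring

theorem zd_kry : zd p q r t u v * kry p q r t u v =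
    kry p q r t u v * cmpM (p * r + q * u + t * v) (p * t * u + q * r * v) := by
  ext i j
  fin_cases i <;> fin_cases j <;>
    simp [zd, kry, cmpM, Matrix.mul_apply, Fin.sum_univ_three] <;> ring

theorem det_kry : (kry p q r t u v).det = r * (v * r) - t * u * u := by
  simp [kry, Matrix.det_fin_three]

theorem det_bez (q₁ : F) : (bez q₁).det = -1 := by
  simp [bez, Matrix.det_fin_three]

theorem cmpM_bez (q₁ q₀ : F) : cmpM q₁ q₀ * bez q₁ = bez q₁ * (cmpM q₁ q₀)ᵀ := by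
  ext i j
  fin_cases i <;> fin_cases j <;>
    simp [bez, cmpM, Matrix.mul_apply, Fin.sum_univ_three, Matrix.transpose_apply]

theorem bez_t (q₁ : F) : (bez q₁)ᵀ = bez q₁ := by
  ext i j
  fin_cases i <;> fin_cases j <;> simp [bez]

/-- The symmetric matrix. -/
theorem frame_vec {z P M B : Matrix (Fin 3) (Fin 3) F} (h1 : z * P = P * M) (h2 : M * B = B * Mᵀ)
    (h3 : Bᵀ = B) : (P * B * Pᵀ)ᵀ = P * B * Pᵀ ∧ z * (P * B * Pᵀ) = P * B * Pᵀ * zᵀ := by
  constructor
  · rw [Matrix.transpose_mul, Matrix.transpose_mul, h3, Matrix.transpose_transpose,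
      Matrix.mul_assoc]
  · calc z * (P * B * Pᵀ) = z * P * (B * Pᵀ) := by simp only [Matrix.mul_assoc]
      _ = P * (M * B) * Pᵀ := by rw [h1]; simp only [Matrix.mul_assoc]
      _ = P * B * (P * M)ᵀ := by rw [h2, Matrix.transpose_mul]; simp only [Matrix.mul_assoc]
      _ = P * B * Pᵀ * zᵀ := by rw [← h1, Matrix.transpose_mul]; simp only [Matrix.mul_assoc]

end zero

/-- A rational number close to a point where two continuous functions are negative and not zero. -/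
theorem exists_rat {F G : ℝ → ℝ} (hF : Continuous F) (hG : Continuous G) {x : ℝ} (h1 : F x < 0)
    (h2 : G x ≠ 0) : ∃ r : ℚ, F r < 0 ∧ G r ≠ 0 := by
  have hU : IsOpen {y : ℝ | F y < 0 ∧ G y ≠ 0} :=
    (isOpen_lt hF continuous_const).inter (isOpen_ne_fun hG continuous_const)
  obtain ⟨r, hr⟩ := Rat.denseRange_cast.exists_mem_open hU ⟨x, h1, h2⟩
  exact ⟨r, hr⟩


/-- The relation between the traces of the standard elements. -/
theorem rel_val (W : WH ρ σ lam g th s kap a b c) : ρ (g 0 : E) * s = g 1 ∧ ρ (g 1 : E) * s = g 2 ∧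
    ρ (g 2 : E) * (lam * σ lam * s) = g 0 ∧ ρ (σ (lam : E)) = σ (lam : E) := by
  refine ⟨by rw [mul_comm, ← W.rel.g1], by rw [mul_comm, ← W.rel.g2], by rw [mul_comm, ← W.rel.g0], ?_⟩
  rw [W.rel.comm, W.ρlam]

/-- The standard symmetric element `x u + (x u)^*`, where `x = 1 + r th`. -/
def zst (σ : E ≃ₐ[k] E) (lam : Eˣ) (g : Fin 3 → Eˣ) (x y : E) : Matrix (Fin 3) (Fin 3) E :=
  zd (y * (g 1 / g 0)) (x / lam) x (y * (g 2 / g 1)) (y * (g 0 / (g 2 * σ lam))) x

/-- **The standard point.** -/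
theorem exists_base [NumberField k] [NumberField E] (W : WH ρ σ lam g th s kap a b c) :
    ∃ (z₀ v₀ : Matrix (Fin 3) (Fin 3) E) (q₁ q₀ : k) (w₀ : E →+* ℝ),
      Base ρ σ lam g a b c z₀ v₀ q₁ q₀ w₀ := by
  obtain ⟨w, hwa, hwb, hwc⟩ := exists_real W.hdiv
  have hg : ∀ i, (g i : E) ≠ 0 := fun i => (g i).ne_zero
  have hl : (lam : E) ≠ 0 := lam.ne_zero
  have hl' : σ (lam : E) ≠ 0 := (map_ne_zero σ).mpr hl
  have hs := W.rel.s_ne
  obtain ⟨e0, e1, e2, e3⟩ := rel_val W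
  have r0 : ρ (g 0 : E) = g 1 / s := by rw [← e0, mul_div_cancel_right₀ _ hs]
  have r1 : ρ (g 1 : E) = g 2 / s := by rw [← e1, mul_div_cancel_right₀ _ hs]
  have r2 : ρ (g 2 : E) = g 0 / (lam * σ lam * s) := by
    rw [← e2, mul_div_cancel_right₀ _ (mul_ne_zero (mul_ne_zero hl hl') hs)]
  -- the real functions
  obtain ⟨β, hβ⟩ : ∃ β, β = w th := ⟨_, rfl⟩
  have hβ0 : β ≠ 0 := by rw [hβ]; exact (map_ne_zero w).mpr W.th_ne
  obtain ⟨S, hS⟩ : ∃ S : E, S = g 1 / g 0 + g 2 / g 1 + g 0 / (g 2 * (lam * σ lam)) := ⟨_, rfl⟩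
  obtain ⟨T, hT⟩ : ∃ T : E, T = (g 2 / g 1) * (g 0 / (g 2 * σ lam)) ^ 2 := ⟨_, rfl⟩
  let F : ℝ → ℝ := fun r => 4 * ((1 + r * β) * (1 - r * β) * w S) ^ 3 -
    27 * ((1 + r * β) ^ 3 / w lam + (1 - r * β) ^ 3 / w (σ lam)) ^ 2
  let G : ℝ → ℝ := fun r => (1 + r * β) ^ 3 - (1 - r * β) ^ 3 * w T
  have hF : Continuous F := by fun_prop
  have hG : Continuous G := by fun_prop
  have hwl : w lam ≠ 0 := (map_ne_zero w).mpr hl
  obtain ⟨r, hr1, hr2⟩ := exists_rat hF hG (x := β⁻¹) (by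
    change 4 * ((1 + β⁻¹ * β) * (1 - β⁻¹ * β) * w S) ^ 3 -
      27 * ((1 + β⁻¹ * β) ^ 3 / w lam + (1 - β⁻¹ * β) ^ 3 / w (σ lam)) ^ 2 < 0
    rw [inv_mul_cancel₀ hβ0]
    have : 0 < ((1 + 1 : ℝ) ^ 3 / w lam) ^ 2 := by positivity
    norm_num at this ⊢
    positivity) (by
    change (1 + β⁻¹ * β) ^ 3 - (1 - β⁻¹ * β) ^ 3 * w T ≠ 0
    rw [inv_mul_cancel₀ hβ0]
    norm_num)
  obtain ⟨x, hx⟩ : ∃ x : E, x = 1 + (r : E) * th := ⟨_, rfl⟩
  obtain ⟨y, hy⟩ : ∃ y : E, y = 1 - (r : E) * th := ⟨_, rfl⟩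
  have hxy : σ x = y := by rw [hx, hy, map_add, map_one, map_mul, map_ratCast, W.σth]; ring
  have hyx : σ y = x := by rw [hx, hy, map_sub, map_one, map_mul, map_ratCast, W.σth]; ring
  have hρx : ρ x = x := by rw [hx, map_add, map_one, map_mul, map_ratCast, W.ρth]
  have hρy : ρ y = y := by rw [hy, map_sub, map_one, map_mul, map_ratCast, W.ρth]
  have hwx : w x = 1 + r * β := by rw [hx, map_add, map_one, map_mul, map_ratCast, hβ]
  have hwy : w y = 1 - r * β := by rw [hy, map_sub, map_one, map_mul, map_ratCast, hβ]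
  obtain ⟨m1, hm1⟩ : ∃ m1 : E, m1 = y * (g 1 / g 0) * x + x / lam * (y * (g 0 / (g 2 * σ lam))) +
    y * (g 2 / g 1) * x := ⟨_, rfl⟩
  obtain ⟨m0, hm0⟩ : ∃ m0 : E, m0 = y * (g 1 / g 0) * (y * (g 2 / g 1)) *
    (y * (g 0 / (g 2 * σ lam))) + x / lam * x * x := ⟨_, rfl⟩
  have hm1' : m1 = x * y * S := by
    rw [hm1, hS]
    have := hg 0
    have := hg 1
    have := hg 2
    field_simp
    ring
  have hm0' : m0 = x ^ 3 / lam + y ^ 3 / σ lam := by
    rw [hm0]
    have := hg 0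
    have := hg 1
    have := hg 2
    field_simp
    ring
  have hρS : ρ S = S := by
    rw [hS]
    simp only [map_add, map_div₀, map_mul, e3, W.ρlam, r0, r1, r2]
    have := hg 0
    have := hg 1
    have := hg 2
    field_simp
    ring
  have hσS : σ S = S := by
    rw [hS]
    simp only [map_add, map_div₀, map_mul, W.rel.σg, W.rel.σ2]
    rw [mul_comm (σ (lam : E))]
  obtain ⟨q1, hq1⟩ := exists_kW W (x := m1) (by rw [hm1', map_mul, map_mul, hρx, hρy, hρS])
    (by rw [hm1', map_mul, map_mul, hxy, hyx, hσS, mul_comm y])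
  obtain ⟨q0, hq0⟩ := exists_kW W (x := m0)
    (by rw [hm0', map_add, map_div₀, map_div₀, map_pow, map_pow, hρx, hρy, e3, W.ρlam])
    (by rw [hm0', map_add, map_div₀, map_div₀, map_pow, map_pow, hxy, hyx, W.rel.σ2, add_comm])
  obtain ⟨z, hz⟩ : ∃ z, z = zst σ lam g x y := ⟨_, rfl⟩
  obtain ⟨P, hP⟩ : ∃ P, P = kry (y * (g 1 / g 0)) (x / lam) x (y * (g 2 / g 1))
    (y * (g 0 / (g 2 * σ lam))) x := ⟨_, rfl⟩
  have hfr := frame_vec (z := z) (P := P) (M := cmpM m1 m0) (B := bez m1)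
    (by rw [hz, hP, zst, zd_kry, ← hm1, ← hm0]) (cmpM_bez _ _) (bez_t _)
  have hPd : P.det ≠ 0 := by
    rw [hP, det_kry]
    have h2 : w (x * (x * x) - y * (g 2 / g 1) * (y * (g 0 / (g 2 * σ lam))) *
        (y * (g 0 / (g 2 * σ lam)))) ≠ 0 := by
      have h3 : x * (x * x) - y * (g 2 / g 1) * (y * (g 0 / (g 2 * σ lam))) *
        (y * (g 0 / (g 2 * σ lam))) = x ^ 3 - y ^ 3 * T := by
        rw [hT]
        ring
      rw [h3, map_sub, map_mul, map_pow, map_pow, hwx, hwy]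
      exact hr2
    exact fun h => h2 (by rw [h, map_zero])
  refine ⟨z, P * bez m1 * Pᵀ, q1, q0, w,
    ⟨?_, ?_, ?_, ?_, hfr.1, hfr.2, ?_, ?_, ⟨hwa, hwb, hwc⟩, ?_⟩⟩
  · rw [InD0, hz]
    apply Matrix.ext
    intro i j
    have i0 := hg 0
    have i1 := hg 1
    have i2 := hg 2
    fin_cases i <;> fin_cases j <;>
      simp [zst, zd, um, Matrix.mul_apply, Fin.sum_univ_three, hρx, hρy, r0, r1, r2, e3,
        W.ρlam] <;> field_simp <;> exact Or.inl trivial
  · intro i j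
    rw [hz]
    have i0 := hg 0
    have i1 := hg 1
    have i2 := hg 2
    fin_cases i <;> fin_cases j <;>
      simp [zst, zd, hxy, hyx, W.rel.σg, W.rel.σ2] <;> field_simp
  · rw [hz]
    simp [zst, zd, Matrix.trace, Fin.sum_univ_three]
  · rw [hz, zst, zd_cube, ← hm1, ← hm0, hq1, hq0]
  · rw [Matrix.det_mul, Matrix.det_mul, Matrix.det_transpose, det_bez]
    simp [hPd]
  · have h1 : (Matrix.of fun i j : Fin 3 => (z ^ (j : ℕ)) i 0) = P := by
      rw [hz, hP, zst]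
      apply Matrix.ext
      intro i j
      fin_cases i <;> fin_cases j <;>
        simp [zd, kry, pow_two, Matrix.mul_apply, Fin.sum_univ_three]
    rw [h1]
    exact hPd
  · have h1 : w (algebraMap k E (dsc 0 q1 q0)) = F r := by
      have h2 : dsc 0 q1 q0 = 4 * q1 ^ 3 - 27 * q0 ^ 2 := by
        unfold dsc
        ring
      rw [h2]
      simp only [map_sub, map_mul, map_pow, map_ofNat]
      rw [hq1, hq0, hm1', hm0', map_mul, map_mul, map_add, map_div₀, map_div₀, map_pow, map_pow,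
        hwx, hwy]
    rw [h1]
    exact hr1

end H541

end Vale.Agent.P011.E6W
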