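import Vale.Agent.P011.E6W.H684.PDefs
import Vale.Agent.P011.E6W.H183.SqRes

/-!
Change of the generators of the quaternion algebra.
-/

open Matrix

set_option linter.unusedSectionVars false

namespace Vale.Agent.P011.E6W.H541

open Vale.Agent.P011.MPQ hiding mat
open Vale.Agent.P011.D4 Vale.Agent.P011.D4.Oct Vale.Agent.P011.E6
open Vale.Agent.P011.E6I (MQ toMQ Mp S0 S1 S2 FixK InVs)
open Vale.Agent.P011.E6W.H684 (GKJ)

section gen

variable {F : Type} [Field F] [NeZero (2 : F)] {α β α' β' c : Fˣ}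

/-- The isomorphism of quaternion algebras given by two generators. -/
theorem exists_qiso {W J : Qt α β} (hW : W.re = 0) (hJ : J.re = 0)
    (hWW : W * W = (α' : F) • (1 : Qt α β)) (hJJ : J * J = (β' : F) • (1 : Qt α β))
    (hWJ : W * J = -(J * W)) :
    ∃ Ψ : Qt α' β' ≃ₐ[F] Qt α β,
      (∀ q, Ψ q = q.re • (1 : Qt α β) + q.imI • W + q.imJ • J + q.imK • (W * J)) ∧
      ∀ q, Ψ (star q) = star (Ψ q) := by
  have hsW : star W = -W := by
    ext <;> simp [hW]
  have hsJ : star J = -J := by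
    ext <;> simp [hJ]
  have hsWJ : star (W * J) = -(W * J) := by
    rw [star_mul, hsW, hsJ, neg_mul_neg, hWJ, neg_neg]
  obtain ⟨B, hB⟩ : ∃ B : QuaternionAlgebra.Basis (Qt α β) (α' : F) 0 (β' : F),
      B.i = W ∧ B.j = J ∧ B.k = W * J :=
    ⟨{ i := W
       j := J
       k := W * J
       i_mul_i := by rw [hWW, zero_smul, add_zero]
       j_mul_j := hJJ
       i_mul_j := rfl
       j_mul_i := by rw [zero_smul, zero_sub, hWJ, neg_neg] }, rfl, rfl, rfl⟩
  have hf : ∀ q : Qt α' β', B.liftHom q =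
      q.re • (1 : Qt α β) + q.imI • W + q.imJ • J + q.imK • (W * J) := by
    intro q
    change algebraMap F _ q.re + q.imI • B.i + q.imJ • B.j + q.imK • B.k = _
    rw [hB.1, hB.2.1, hB.2.2, Algebra.algebraMap_eq_smul_one]
  have hst : ∀ q : Qt α' β', B.liftHom (star q) = star (B.liftHom q) := by
    intro q
    rw [hf, hf]
    simp only [star_add, QuaternionAlgebra.star_smul, hsW, hsJ, hsWJ,
      QuaternionAlgebra.re_star, QuaternionAlgebra.imI_star, QuaternionAlgebra.imJ_star,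
      QuaternionAlgebra.imK_star, star_one, neg_smul, smul_neg, zero_mul, add_zero]
  have h2 : (2 : F) ≠ 0 := NeZero.ne 2
  have hα : (α' : F) ≠ 0 := α'.ne_zero
  have hβ : (β' : F) ≠ 0 := β'.ne_zero
  have hW0 : W ≠ 0 := by
    rintro rfl
    rw [zero_mul] at hWW
    have h := congrArg QuaternionAlgebra.re hWW
    simp only [QuaternionAlgebra.re_zero, QuaternionAlgebra.re_smul, QuaternionAlgebra.re_one,
      smul_eq_mul, mul_one] at h
    exact hα h.symm
  -- the elements `x + y W`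
  have key : ∀ x y : F, x • (1 : Qt α β) + y • W = 0 → x = 0 ∧ y = 0 := by
    intro x y h
    have h1 : x = 0 := by
      have := congrArg QuaternionAlgebra.re h
      simpa [hW] using this
    refine ⟨h1, ?_⟩
    rw [h1, zero_smul, zero_add] at h
    exact (smul_eq_zero.mp h).resolve_right hW0
  have hinj : Function.Injective B.liftHom := by
    rw [injective_iff_map_eq_zero]
    intro q hq
    rw [hf] at hq
    have h3 : (q.re • (1 : Qt α β) + q.imI • W) + (q.imJ • (1 : Qt α β) + q.imK • W) * J = 0 := by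
      rw [add_mul, smul_mul_assoc, smul_mul_assoc, one_mul, ← hq]
      abel
    -- conjugation by `W`
    have h4 : W * ((q.re • (1 : Qt α β) + q.imI • W) + (q.imJ • (1 : Qt α β) + q.imK • W) * J) +
        ((q.re • (1 : Qt α β) + q.imI • W) + (q.imJ • (1 : Qt α β) + q.imK • W) * J) * W =
        (2 * q.imI * α') • (1 : Qt α β) + (2 * q.re) • W := by
      have e1 : W * (W * J) + W * J * W = 0 := by
        rw [mul_assoc W J W, ← mul_add, hWJ, neg_add_cancel, mul_zero]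
      have e2 : W * J + J * W = 0 := by rw [hWJ, neg_add_cancel]
      calc _ = (2 * q.re) • W + (2 * q.imI) • (W * W) + q.imJ • (W * J + J * W) +
            q.imK • (W * (W * J) + W * J * W) := by
            simp only [mul_add, add_mul, smul_mul_assoc, mul_smul_comm, mul_one, one_mul, smul_add,
              mul_assoc]
            module
        _ = _ := by
          rw [e1, e2, hWW]
          module
    rw [h3, mul_zero, zero_mul, add_zero] at h4
    obtain ⟨h5, h6⟩ := key _ _ h4.symm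
    have h7 : q.imI = 0 :=
      ((mul_eq_zero.mp ((mul_eq_zero.mp h5).resolve_right hα)).resolve_left h2)
    have h8 : q.re = 0 := (mul_eq_zero.mp h6).resolve_left h2
    rw [h7, h8, zero_smul, zero_smul, add_zero, zero_add] at h3
    have h9 : (q.imJ • (1 : Qt α β) + q.imK • W) * (J * J) = 0 := by
      rw [← mul_assoc, h3, zero_mul]
    rw [hJJ, mul_smul_comm, mul_one] at h9
    obtain ⟨h10, h11⟩ := key _ _ ((smul_eq_zero.mp h9).resolve_left hβ)
    exact QuaternionAlgebra.ext h8 h7 h10 h11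
  have hfin : ∀ x y : Fˣ, Module.finrank F (Qt x y) = 4 := fun x y =>
    QuaternionAlgebra.finrank_eq_four _ _ _
  have hfd : ∀ x y : Fˣ, Module.Finite F (Qt x y) := fun x y =>
    Module.finite_of_finrank_pos (by rw [hfin]; norm_num)
  have hsurj : Function.Surjective B.liftHom := by
    have h1 := hfd α' β'
    have h3 := hfd α β
    exact (LinearMap.injective_iff_surjective_of_finrank_eq_finrank
      (f := B.liftHom.toLinearMap) (by rw [hfin, hfin])).mp hinj
  exact ⟨AlgEquiv.ofBijective B.liftHom ⟨hinj, hsurj⟩, hf, hst⟩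

/-- The isomorphism of octonion algebras. -/
def octE (Ψ : Qt α' β' ≃ₐ[F] Qt α β) : Oct α' β' c ≃ₗ[F] Oct α β c where
  toFun x := ⟨Ψ x.fst, Ψ x.snd⟩
  invFun x := ⟨Ψ.symm x.fst, Ψ.symm x.snd⟩
  left_inv x := by simp
  right_inv x := by simp
  map_add' x y := Oct.ext (map_add Ψ _ _) (map_add Ψ _ _)
  map_smul' t x := Oct.ext (map_smul Ψ _ _) (map_smul Ψ _ _)

theorem octE_apply (Ψ : Qt α' β' ≃ₐ[F] Qt α β) (x : Oct α' β' c) :
    octE Ψ x = ⟨Ψ x.fst, Ψ x.snd⟩ := rfl

variable {Ψ : Qt α' β' ≃ₐ[F] Qt α β} (hst : ∀ q, Ψ (star q) = star (Ψ q))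

include hst

theorem octE_mul (x y : Oct α' β' c) : octE Ψ (x * y) = octE Ψ x * octE Ψ y := by
  rw [octE_apply, octE_apply, octE_apply]
  apply Oct.ext
  · simp only [Oct.fst_mul, map_add, map_mul, map_smul, hst]
  · simp only [Oct.snd_mul, map_add, map_mul, hst]

theorem re_iso (q : Qt α' β') : (Ψ q).re = q.re := by
  have h1 : Ψ (q + star q) = Ψ q + star (Ψ q) := by rw [map_add, hst]
  have h2 : q + star q = algebraMap F (Qt α' β') (2 * q.re) := by
    ext <;> simp [QuaternionAlgebra.algebraMap_eq]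
    ring
  rw [h2, AlgEquiv.commutes] at h1
  have h3 := congrArg QuaternionAlgebra.re h1
  simp only [QuaternionAlgebra.algebraMap_eq, QuaternionAlgebra.re_add,
    QuaternionAlgebra.re_star, zero_mul, add_zero] at h3
  have h4 : (2 : F) * ((Ψ q).re - q.re) = 0 := by linear_combination -h3
  exact sub_eq_zero.mp ((mul_eq_zero.mp h4).resolve_left (NeZero.ne 2))

theorem mat_iso (x : Alb α' β' c) :
    Alb.mat (Alb.mapE (octE Ψ) x) = (Alb.mat x).map Ψ := by
  apply Matrix.ext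
  intro i j
  rw [Matrix.map_apply]
  fin_cases i <;> fin_cases j
  · exact (AlgEquiv.commutes Ψ _).symm
  · rfl
  · exact (hst _).symm
  · exact (hst _).symm
  · exact (AlgEquiv.commutes Ψ _).symm
  · rfl
  · rfl
  · exact (hst _).symm
  · exact (AlgEquiv.commutes Ψ _).symm

theorem ofMV_iso (S : Matrix (Fin 3) (Fin 3) (Qt α' β')) (v : Fin 3 → Qt α' β') :
    Alb.mapE (octE Ψ) (Alb.ofMV S v : Alb α' β' c) = Alb.ofMV (S.map Ψ) (fun i => Ψ (v i)) := by
  rw [Alb.mapE_apply]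
  simp only [Alb.omapA, Alb.ofMV, Matrix.map_apply, re_iso hst]
  rfl

theorem act_iso {m' : (Matrix (Fin 3) (Fin 3) (Qt α' β'))ˣ} {m : (Matrix (Fin 3) (Fin 3) (Qt α β))ˣ}
    (hm : (m : Matrix (Fin 3) (Fin 3) (Qt α β)) = (m' : Matrix (Fin 3) (Fin 3) (Qt α' β')).map Ψ)
    (κ' : Qt α' β') (X : Alb α' β' c) :
    Alb.mapE (octE Ψ) (Alb.act m' κ' X) = Alb.act m (Ψ κ') (Alb.mapE (octE Ψ) X) := by
  have hmul : ∀ A B : Matrix (Fin 3) (Fin 3) (Qt α' β'), (A * B).map Ψ = A.map Ψ * B.map Ψ :=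
    fun A B => Matrix.map_mul (f := (Ψ : Qt α' β' →+* Qt α β))
  have hone : (1 : Matrix (Fin 3) (Fin 3) (Qt α' β')).map Ψ = 1 :=
    Matrix.map_one Ψ (map_zero Ψ) (map_one Ψ)
  have hinv : ((m⁻¹ : (Matrix (Fin 3) (Fin 3) (Qt α β))ˣ) : Matrix (Fin 3) (Fin 3) (Qt α β)) =
      ((m'⁻¹ : (Matrix (Fin 3) (Fin 3) (Qt α' β'))ˣ) : Matrix (Fin 3) (Fin 3) (Qt α' β')).map Ψ := by
    rw [← Units.mul_right_inj m, Units.mul_inv, hm, ← hmul, Units.mul_inv, hone]
  have hct : ∀ A : Matrix (Fin 3) (Fin 3) (Qt α' β'), (A.map Ψ)ᴴ = Aᴴ.map Ψ := by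
    intro A
    apply Matrix.ext
    intro i j
    exact (hst _).symm
  rw [Alb.act, Alb.act, ofMV_iso hst, mat_iso hst, hmul, hmul, ← hct, hm, hinv]
  congr 1
  funext i
  rw [map_mul]
  congr 1
  simp only [Matrix.vecMul, dotProduct, map_sum, map_mul, Matrix.map_apply]
  refine Finset.sum_congr rfl fun j _ => ?_
  congr 1
  fin_cases j <;> rfl

end gen

section model

variable {k K : Type} [Field k] [Field K] [Algebra k K] [NeZero (2 : K)] {a b c u b' : kˣ}
  {s : K ≃ₐ[k] K} {p0 p1 p2 : k}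

/-- The change of the generators commutes with the semilinear map. -/
theorem iso_qmap {w j : Qt a b} {Ψ : Qt (up K u) (up K b') ≃ₐ[K] Qt (up K a) (up K b)}
    (hΨ : ∀ q, Ψ q = q.re • (1 : Qt (up K a) (up K b)) + q.imI • qup K w + q.imJ • qup K j +
      q.imK • (qup K w * qup K j)) (q : Qt (up K u) (up K b')) :
    Ψ (qmap s q) = qmap s (Ψ q) := by
  have h1 : ∀ x : Qt a b, qmap s (qup K x) = qup K x := by
    intro x
    exact QuaternionAlgebra.ext (AlgEquiv.commutes s _) (AlgEquiv.commutes s _)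
      (AlgEquiv.commutes s _) (AlgEquiv.commutes s _)
  have h2 : ∀ (t : K) (x : Qt (up K a) (up K b)), qmap s (t • x) = s t • qmap s x := by
    intro t x
    exact QuaternionAlgebra.ext (map_mul s _ _) (map_mul s _ _) (map_mul s _ _) (map_mul s _ _)
  have h3 : ∀ x y : Qt (up K a) (up K b), qmap s (x + y) = qmap s x + qmap s y := by
    intro x y
    exact QuaternionAlgebra.ext (map_add s _ _) (map_add s _ _) (map_add s _ _) (map_add s _ _)
  rw [hΨ, hΨ, ← qup_mul, h3, h3, h3, h2, h2, h2, h2, h1, h1, h1, ← qup_one (L := K), h1]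
  rfl

/-- The change of coordinates. -/
theorem iso_amap {Ψ : Qt (up K u) (up K b') ≃ₐ[K] Qt (up K a) (up K b)}
    (hq : ∀ q, Ψ (qmap s q) = qmap s (Ψ q)) (X : AlbL K u b' c) :
    amap s (Alb.mapE (octE Ψ) X : AlbL K a b c) = Alb.mapE (octE Ψ) (amap s X) := by
  have h1 : ∀ x : OctL K u b' c, omap s (octE Ψ x : OctL K a b c) = octE Ψ (omap s x) := by
    intro x
    exact Oct.ext (hq _).symm (hq _).symm
  rw [Alb.mapE_apply, Alb.mapE_apply]
  simp only [Alb.omapA, amap, h1]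

theorem iso_ofF (Ψ : Qt (up K u) (up K b') ≃ₐ[K] Qt (up K a) (up K b))
    (S : Matrix (Fin 3) (Fin 3) K) :
    Alb.mapE (octE Ψ) (Alb.ofF S : AlbL K u b' c) = (Alb.ofF S : AlbL K a b c) := by
  have h1 : octE Ψ (1 : OctL K u b' c) = (1 : OctL K a b c) :=
    Oct.ext (map_one Ψ) (map_zero Ψ)
  rw [Alb.mapE_apply]
  simp only [Alb.omapA, Alb.ofF, map_smul, h1]

/-- **Change of the generators of the quaternion algebra.** -/
theorem gkj_iso {Ψ : Qt (up K u) (up K b') ≃ₐ[K] Qt (up K a) (up K b)}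
    (hst : ∀ q, Ψ (star q) = star (Ψ q)) (hq : ∀ q, Ψ (qmap s q) = qmap s (Ψ q))
    {m' : (MQ K u b')ˣ} {m : (MQ K a b)ˣ} (hm : (m : MQ K a b) = (m' : MQ K u b').map Ψ)
    {κ' : Qt (up K u) (up K b')} {κ : Qt (up K a) (up K b)} (hκ : κ = Ψ κ')
    (h : ∀ N : Subgroup (GKJ s p0 p1 p2 c m' κ'), N.index ≠ 0 → N = ⊤)
    (N : Subgroup (GKJ s p0 p1 p2 c m κ)) (hN : N.index ≠ 0) : N = ⊤ := by
  obtain ⟨Θ, hΘ⟩ : ∃ Θ : AlbL K u b' c ≃ₗ[K] AlbL K a b c, Θ = Alb.mapE (octE Ψ) := ⟨_, rfl⟩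
  have hcub : ∀ X, Alb.cub (Θ X) = Alb.cub X := by
    intro X
    rw [hΘ]
    exact Alb.cub_mapE (octE_mul hst) X
  have hcub' : ∀ X, Alb.cub (Θ.symm X) = Alb.cub X := by
    intro X
    rw [← hcub, LinearEquiv.apply_symm_apply]
  have hofF : ∀ S : Matrix (Fin 3) (Fin 3) K, Θ (Alb.ofF S) = Alb.ofF S := by
    intro S
    rw [hΘ]
    exact iso_ofF Ψ S
  have hofF' : ∀ S : Matrix (Fin 3) (Fin 3) K, Θ.symm (Alb.ofF S) = Alb.ofF S := by
    intro S
    rw [← hofF, LinearEquiv.symm_apply_apply]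
  have hJ : ∀ X, Θ (Alb.act m' κ' (amap s X)) = Alb.act m κ (amap s (Θ X)) := by
    intro X
    rw [hΘ, hκ, iso_amap hq, act_iso hst hm]
  have hJ' : ∀ X, Θ.symm (Alb.act m κ (amap s X)) = Alb.act m' κ' (amap s (Θ.symm X)) := by
    intro X
    apply Θ.injective
    rw [LinearEquiv.apply_symm_apply, hJ, LinearEquiv.apply_symm_apply]
  obtain ⟨Φ, hΦ⟩ : ∃ Φ : GKJ s p0 p1 p2 c m' κ' →* GKJ s p0 p1 p2 c m κ,
      ∀ g X, (Φ g).1 X = Θ (g.1 (Θ.symm X)) := by
    refine ⟨{ toFun := fun g => ⟨(Θ.symm.trans g.1).trans Θ, ⟨⟨fun X => ?_, ?_, ?_, ?_⟩,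
        fun X => ?_⟩⟩, map_one' := ?_, map_mul' := ?_ }, fun g X => rfl⟩
    · change Alb.cub (Θ (g.1 (Θ.symm X))) = _
      rw [hcub, g.2.1.1, hcub']
    · change Θ (g.1 (Θ.symm _)) = _
      rw [hofF', g.2.1.2.1, hofF]
    · change Θ (g.1 (Θ.symm _)) = _
      rw [hofF', g.2.1.2.2.1, hofF]
    · change Θ (g.1 (Θ.symm _)) = _
      rw [hofF', g.2.1.2.2.2, hofF]
    · change Θ (g.1 (Θ.symm _)) = Alb.act m κ (amap s (Θ (g.1 (Θ.symm X))))
      rw [hJ', g.2.2, hJ]
    · refine Subtype.ext (LinearEquiv.ext fun X => ?_)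
      exact Θ.apply_symm_apply X
    · intro g g'
      refine Subtype.ext (LinearEquiv.ext fun X => ?_)
      change Θ (g.1 (g'.1 (Θ.symm X))) = Θ (g.1 (Θ.symm (Θ (g'.1 (Θ.symm X)))))
      rw [LinearEquiv.symm_apply_apply]
  have hsurj : Function.Surjective Φ := by
    intro g
    refine ⟨⟨(Θ.trans g.1).trans Θ.symm, ⟨⟨fun X => ?_, ?_, ?_, ?_⟩, fun X => ?_⟩⟩, ?_⟩
    · change Alb.cub (Θ.symm (g.1 (Θ X))) = _
      rw [hcub', g.2.1.1, hcub]
    · change Θ.symm (g.1 (Θ _)) = _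
      rw [hofF, g.2.1.2.1, hofF']
    · change Θ.symm (g.1 (Θ _)) = _
      rw [hofF, g.2.1.2.2.1, hofF']
    · change Θ.symm (g.1 (Θ _)) = _
      rw [hofF, g.2.1.2.2.2, hofF']
    · change Θ.symm (g.1 (Θ _)) = Alb.act m' κ' (amap s (Θ.symm (g.1 (Θ X))))
      rw [hJ, g.2.2, hJ']
    · refine Subtype.ext (LinearEquiv.ext fun X => ?_)
      rw [hΦ]
      change Θ (Θ.symm (g.1 (Θ (Θ.symm X)))) = g.1 X
      rw [LinearEquiv.apply_symm_apply, LinearEquiv.apply_symm_apply]
  have h1 := h (N.comap Φ) (by rwa [Subgroup.index_comap_of_surjective N hsurj])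
  rw [eq_top_iff]
  intro g _
  obtain ⟨g', rfl⟩ := hsurj g
  have h2 : g' ∈ N.comap Φ := by
    rw [h1]
    trivial
  exact h2

/-- **The new generators.** -/
theorem exists_model [NeZero (2 : k)] {w : Qt a b} (hw : w.re = 0)
    (hww : w * w = (u : k) • (1 : Qt a b)) (hdiv : Division a b c) :
    ∃ (b' : kˣ) (Ψ : Qt (up K u) (up K b') ≃ₐ[K] Qt (up K a) (up K b)),
      Division u b' c ∧ (∀ τ : k →+* ℝ, τ a < 0 → τ b < 0 → τ b' < 0) ∧
      (∀ q, Ψ (star q) = star (Ψ q)) ∧ (∀ (s : K ≃ₐ[k] K) q, Ψ (qmap s q) = qmap s (Ψ q)) ∧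
      ∀ x y : K, Ψ ⟨x, y, 0, 0⟩ = algebraMap K _ x + y • qup K w := by
  have h2 : (2 : k) ≠ 0 := NeZero.ne 2
  have hu : (u : k) ≠ 0 := u.ne_zero
  have hw0 : w ≠ 0 := by
    rintro rfl
    rw [zero_mul] at hww
    have h := congrArg QuaternionAlgebra.re hww
    simp only [QuaternionAlgebra.re_zero, QuaternionAlgebra.re_smul, QuaternionAlgebra.re_one,
      smul_eq_mul, mul_one] at h
    exact hu h.symm
  have hsw : star w = -w := by
    ext <;> simp [hw]
  -- the algebra of quaternions is anisotropic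
  have han : ∀ q : Qt a b, nrd q = 0 → q = 0 := by
    intro q hq
    have h1 : Oct.norm (⟨q, 0⟩ : Oct a b c) = 0 := by
      rw [Oct.norm, hq]
      simp [nrd]
    exact congrArg Oct.fst (hdiv _ h1)
  -- an element which does not commute with `w`
  obtain ⟨x, hx, hxw⟩ : ∃ x : Qt a b, star x = -x ∧ w * x - x * w ≠ 0 := by
    by_contra hcon
    push Not at hcon
    have h1 := hcon (H183.qi a b) (H183.star_qi a b)
    have h3 := hcon (H183.qj a b) (H183.star_qj a b)
    apply hw0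
    obtain ⟨w0, w1, w2, w3⟩ := w
    change w0 = 0 at hw
    have ha : (a : k) ≠ 0 := a.ne_zero
    have hb : (b : k) ≠ 0 := b.ne_zero
    have e1 := congrArg QuaternionAlgebra.imJ h1
    have e2 := congrArg QuaternionAlgebra.imK h1
    have e3 := congrArg QuaternionAlgebra.imK h3
    simp [H183.qi, H183.qj] at e1 e2 e3
    have f1 : w3 = 0 := by
      have : (2 * (a : k)) * w3 = 0 := by linear_combination -e1
      exact (mul_eq_zero.mp this).resolve_left (mul_ne_zero h2 ha)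
    have f2 : w2 = 0 := by
      have : (2 : k) * w2 = 0 := by linear_combination -e2
      exact (mul_eq_zero.mp this).resolve_left h2
    have f3 : w1 = 0 := by
      have : (2 : k) * w1 = 0 := by linear_combination e3
      exact (mul_eq_zero.mp this).resolve_left h2
    exact QuaternionAlgebra.ext hw f3 f2 f1
  -- the second generator
  obtain ⟨y, hy⟩ : ∃ y, y = w * x - x * w := ⟨_, rfl⟩
  rw [← hy] at hxw
  have hsy : star y = -y := by
    rw [hy, star_sub, star_mul, star_mul, hsw, hx, neg_mul_neg, neg_mul_neg, neg_sub]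
  have hyre : y.re = 0 := by
    have h := congrArg QuaternionAlgebra.re hsy
    simp only [QuaternionAlgebra.re_star, zero_mul, add_zero, QuaternionAlgebra.re_neg] at h
    have h3 : (2 : k) * y.re = 0 := by linear_combination h
    exact (mul_eq_zero.mp h3).resolve_left h2
  have hwy : w * y = -(y * w) := by
    have h1 : w * w * x = x * (w * w) := by
      rw [hww, smul_mul_assoc, one_mul, mul_smul_comm, mul_one]
    rw [hy, mul_sub, sub_mul, ← mul_assoc, h1, mul_assoc x w w, mul_assoc w x w, neg_sub]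
  have hn : nrd y ≠ 0 := fun h => hxw (han y h)
  have hyy : y * y = (-(nrd y)) • (1 : Qt a b) := by
    have h1 := mul_star_self' y
    rw [hsy, mul_neg] at h1
    rw [neg_smul, ← h1, neg_neg]
  obtain ⟨b', hb'⟩ : ∃ b' : kˣ, (b' : k) = -nrd y := ⟨Units.mk0 _ (neg_ne_zero.mpr hn), rfl⟩
  rw [← hb'] at hyy
  obtain ⟨Ψ₀, -, hst₀⟩ := exists_qiso (α' := u) (β' := b') hw hyre hww hyy hwy
  obtain ⟨Ψ, hΨ, hst⟩ := exists_qiso (F := K) (α := up K a) (β := up K b) (α' := up K u)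
    (β' := up K b') (W := qup K w) (J := qup K y)
    (by rw [re_qup, hw, map_zero]) (by rw [re_qup, hyre, map_zero])
    (by rw [← qup_mul, hww, qup_smul, qup_one]; rfl)
    (by rw [← qup_mul, hyy, qup_smul, qup_one]; rfl)
    (by rw [← qup_mul, hwy, qup_neg, qup_mul])
  refine ⟨b', Ψ, ?_, ?_, hst, fun s q => iso_qmap hΨ q, ?_⟩
  · intro z hz
    have h1 : octE Ψ₀ z = (0 : Oct a b c) :=
      hdiv _ (by rw [Oct.hom_norm (octE_mul hst₀), hz])
    exact (octE Ψ₀).injective (h1.trans (map_zero _).symm)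
  · intro τ ha hb
    rw [hb', map_neg]
    refine neg_lt_zero.mpr (lt_of_le_of_ne ?_ (Ne.symm ((map_ne_zero τ).mpr hn)))
    simp only [nrd, map_sub, map_add, map_mul, map_pow]
    have h1 := mul_nonneg (neg_nonneg.mpr ha.le) (sq_nonneg (τ y.imI))
    have h3 := mul_nonneg (neg_nonneg.mpr hb.le) (sq_nonneg (τ y.imJ))
    have h4 := mul_nonneg (mul_pos_of_neg_of_neg ha hb).le (sq_nonneg (τ y.imK))
    have h5 := sq_nonneg (τ y.re)
    nlinarith
  · intro x y
    rw [hΨ]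
    simp only [zero_smul, add_zero, Algebra.algebraMap_eq_smul_one]

/-- The transport of the data of the element `φ = A + th w B`. -/
theorem exists_mT {w : Qt a b} {Ψ : Qt (up K u) (up K b') ≃ₐ[K] Qt (up K a) (up K b)}
    (hΨ : ∀ x y : K, Ψ ⟨x, y, 0, 0⟩ = algebraMap K _ x + y • qup K w)
    {th : K} {A B : Matrix (Fin 3) (Fin 3) k} {m : (MQ K a b)ˣ}
    (hm : ∀ i j, (m : MQ K a b) i j = algebraMap K (Qt (up K a) (up K b)) (algebraMap k K (A i j)) +
      (th * algebraMap k K (B i j)) • qup K w) :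
    ∃ m' : (MQ K u b')ˣ, (m : MQ K a b) = (m' : MQ K u b').map Ψ ∧
      ∀ i j, (m' : MQ K u b') i j =
        ⟨algebraMap k K (A i j), th * algebraMap k K (B i j), 0, 0⟩ := by
  refine ⟨Units.map (Ψ.symm.mapMatrix : MQ K a b ≃ₐ[K] MQ K u b').toMonoidHom m, ?_, ?_⟩
  · apply Matrix.ext
    intro i j
    exact (Ψ.apply_symm_apply _).symm
  · intro i j
    change Ψ.symm ((m : MQ K a b) i j) = _
    rw [hm, ← hΨ, AlgEquiv.symm_apply_apply]

end model

end Vale.Agent.P011.E6W.H541
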