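import Vale.Agent.P011.E6W.H541.NearA
import Vale.Agent.P011.E6W.H541.Bas
import Vale.Agent.P011.E6W.H183.BarW
import Vale.Agent.P011.E6W.H684.PDefs

/-!
The frames close to the standard frame.
-/

open NumberField Filter Topology

set_option linter.unusedSectionVars false

namespace Vale.Agent.P011.E6W.H541

open Vale.Agent.P011.MPQ hiding mat
open Vale.Agent.P011.D4 Vale.Agent.P011.D4.Oct Vale.Agent.P011.E6 Alb
open Vale.Agent.P011.D4W (AE Stb)
open Vale.Agent.P011.E6O (GO Res InD InD0 um)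
open Vale.Agent.P011.E6I (MQ toMQ InVs toMQ_apply toMQ_mul toMQ_one)
open Vale.Agent.P011.E6H (nm qnm)
open Vale.Agent.P011.E6W.H619 Vale.Agent.P011.E6W.H183
open Matrix

variable {k E : Type} [Field k] [NumberField k] [Field E] [NumberField E] [Algebra k E]
  {ρ σ : E ≃ₐ[k] E} {lam : Eˣ} {g : Fin 3 → Eˣ} {th s : E} {kap a b c : kˣ}
  {z₀ v₀ : Matrix (Fin 3) (Fin 3) E} {q₁ q₀ : k} {w₀ : E →+* ℝ}

theorem map_dsc {F F' : Type} [Field F] [Field F'] (f : F →+* F') (p₂ p₁ p₀ : F) :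
    f (dsc p₂ p₁ p₀) = dsc (f p₂) (f p₁) (f p₀) := by
  simp only [dsc, map_sub, map_add, map_mul, map_pow, map_ofNat]

section base

theorem toMQ_ez (z : Matrix (Fin 3) (Fin 3) E) (t : Fin 3 → E) :
    (ez (toMQ z) t : MQ E a b) = toMQ (ez z t) := by
  have h1 : ∀ x y : Matrix (Fin 3) (Fin 3) E, (toMQ (x + y) : MQ E a b) = toMQ x + toMQ y := by
    intro x y
    apply Matrix.ext
    intro i j
    exact map_add (algebraMap E (Qt (up E a) (up E b))) (x i j) (y i j)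
  rw [ez, ez, h1, h1, toMQ_smul, toMQ_smul, toMQ_smul, toMQ_one, pow_two, pow_two, toMQ_mul]

theorem toMQ_inj {x y : Matrix (Fin 3) (Fin 3) E} (h : (toMQ x : MQ E a b) = toMQ y) : x = y := by
  apply Matrix.ext
  intro i j
  have h1 := congrFun (congrFun h i) j
  rw [toMQ_apply, toMQ_apply] at h1
  exact congrArg QuaternionAlgebra.re h1

variable (B : Base ρ σ lam g a b c z₀ v₀ q₁ q₀ w₀)

include B

theorem base_ind (t : Fin 3 → E) (h : (ez (toMQ z₀) t : MQ E a b) = 0) : t = 0 := by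
  rw [toMQ_ez] at h
  have h0 : ez z₀ t = 0 := toMQ_inj (a := a) (b := b) (by
    rw [h]
    ext i j <;> simp [toMQ_apply])
  refine Matrix.eq_zero_of_mulVec_eq_zero B.kry ?_
  funext i
  have h1 := congrFun (congrFun h0 i) 0
  rw [Matrix.mulVec, dotProduct, Fin.sum_univ_three, Pi.zero_apply]
  simp only [Matrix.of_apply]
  simp only [ez, Matrix.add_apply, Matrix.smul_apply, smul_eq_mul, Matrix.zero_apply] at h1
  rw [← h1]
  simp only [Fin.val_zero, Fin.val_one, Fin.val_two, pow_zero, pow_one]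
  ring

theorem base_cub : (toMQ z₀ : MQ E a b) * toMQ z₀ * toMQ z₀ =
    (0 : E) • (toMQ z₀ * toMQ z₀) + algebraMap k E q₁ • toMQ z₀ + algebraMap k E q₀ • 1 := by
  have h := B.cub
  have h1 : z₀ * z₀ * z₀ = ez z₀ ![algebraMap k E q₀, algebraMap k E q₁, 0] := by
    rw [← pow_two, ← pow_succ, h, ez]
    simp only [Matrix.cons_val, zero_smul, add_zero]
    exact add_comm _ _
  rw [← toMQ_mul, ← toMQ_mul, h1, ← toMQ_ez, ez]
  simp only [Matrix.cons_val, zero_smul, add_zero, zero_add]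
  exact add_comm _ _

theorem base_dsc : dsc (0 : E) (algebraMap k E q₁) (algebraMap k E q₀) ≠ 0 := by
  intro h
  have h1 := B.neg
  rw [map_dsc, map_zero, h, map_zero] at h1
  exact lt_irrefl _ h1

theorem base_cubv : cub (Alb.ofF v₀ : AlbL E a b c) ≠ 0 := by
  rw [cub_ofF B.v0t]
  exact B.det

end base

/-- The square of the commutator of the generators. -/
theorem qc_sq {F : Type} [Field F] (α β : Fˣ) : (qi α β * qj α β - qj α β * qi α β) *
    (qi α β * qj α β - qj α β * qi α β) = (-(4 * (α : F) * β)) • (1 : Qt α β) := by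
  ext <;> simp [qi, qj]
  ring

/-- The square of the commutator of the generators. -/
theorem scq_comm_sq : ((scq (qi (up E a) (up E b)) : MQ E a b) * scq (qj (up E a) (up E b)) -
    scq (qj (up E a) (up E b)) * scq (qi (up E a) (up E b))) *
    (scq (qi (up E a) (up E b)) * scq (qj (up E a) (up E b)) -
    scq (qj (up E a) (up E b)) * scq (qi (up E a) (up E b))) =
    algebraMap k E (-(4 * a * b) : k) • 1 := by
  have h1 : ∀ p q : Qt (up E a) (up E b), (scq p - scq q : MQ E a b) = scq (p - q) := by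
    intro p q
    rw [scq, scq, scq, Matrix.diagonal_sub]
  have h2 : (qi (up E a) (up E b) * qj (up E a) (up E b) -
      qj (up E a) (up E b) * qi (up E a) (up E b)) * (qi (up E a) (up E b) * qj (up E a) (up E b) -
      qj (up E a) (up E b) * qi (up E a) (up E b)) =
      (algebraMap k E (-(4 * a * b) : k)) • (1 : Qt (up E a) (up E b)) := by
    have e : algebraMap k E (-(4 * a * b) : k) = -(4 * (up E a : E) * (up E b : E)) := by
      rw [map_neg, map_mul, map_mul, map_ofNat]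
      rfl
    rw [e]
    exact qc_sq _ _
  rw [scq_mul, scq_mul, h1, scq_mul, h2, scq, ← Matrix.diagonal_one, ← Matrix.diagonal_smul]
  rfl

theorem inV_ofF (S : Matrix (Fin 3) (Fin 3) E) : InVs (Alb.ofF S : AlbL E a b c) := by
  refine ⟨?_, ?_, ?_⟩ <;> simp [Alb.ofF]

theorem mat_ofF {T : Matrix (Fin 3) (Fin 3) E} (hT : Tᵀ = T) :
    Alb.mat (Alb.ofF T : AlbL E a b c) = toMQ T := by
  have h1 : T 1 0 = T 0 1 := congrFun (congrFun hT 0) 1
  have h2 : T 2 0 = T 0 2 := congrFun (congrFun hT 0) 2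
  have h3 : T 2 1 = T 1 2 := congrFun (congrFun hT 1) 2
  have hs' : ∀ t : E, t • (1 : Qt (up E a) (up E b)) = (t : Qt (up E a) (up E b)) := by
    intro t
    ext <;> simp
  have hs : ∀ t : E, star (t • (1 : Qt (up E a) (up E b))) = (t : Qt (up E a) (up E b)) := by
    intro t
    rw [hs', QuaternionAlgebra.star_coe]
  have hc : ∀ x y : E, x = y → (x : Qt (up E a) (up E b)) = (y : Qt (up E a) (up E b)) :=
    fun x y h => congrArg _ h
  apply Matrix.ext
  intro i j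
  rw [toMQ_apply]
  fin_cases i <;> fin_cases j
  · rfl
  · exact hs' _
  · exact (hs _).trans (hc _ _ h2)
  · exact (hs _).trans (hc _ _ h1.symm)
  · rfl
  · exact hs' _
  · exact hs' _
  · exact (hs _).trans (hc _ _ h3.symm)
  · rfl

theorem scq_comm (q : Qt (up E a) (up E b)) (z : Matrix (Fin 3) (Fin 3) E) :
    (scq q : MQ E a b) * toMQ z = toMQ z * scq q := by
  apply Matrix.ext
  intro i j
  rw [scq, Matrix.diagonal_mul, Matrix.mul_diagonal, toMQ_apply]
  exact (QuaternionAlgebra.coe_commutes _ _).symm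

theorem scq_star (q : Qt (up E a) (up E b)) : (scq q : MQ E a b)ᴴ = scq (star q) := by
  rw [scq, Matrix.diagonal_conjTranspose]
  rfl

theorem scq_neg (q : Qt (up E a) (up E b)) : (scq (-q) : MQ E a b) = -scq q := by
  rw [scq, scq, Matrix.diagonal_neg]

section lim

variable (B : Base ρ σ lam g a b c z₀ v₀ q₁ q₀ w₀) {X : Type} {F : Filter X} {z : X → MQ E a b}
  {v : X → AlbL E a b c} {p₂ p₁ p₀ : X → k} (hF : ∀ n, Frame ρ σ lam g (z n) (v n) (p₂ n) (p₁ n) (p₀ n))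
  (hz : AV (SI E) F z (toMQ z₀)) (hv : AV (SI E) F v (Alb.ofF v₀))

include B hF hz

theorem rel_lim : AE (SI E) F (fun n => algebraMap k E (p₂ n)) 0 ∧
    AE (SI E) F (fun n => algebraMap k E (p₁ n)) (algebraMap k E q₁) ∧
    AE (SI E) F (fun n => algebraMap k E (p₀ n)) (algebraMap k E q₀) := by
  have h1 := ez_coef SI_nonempty hz (base_ind B)
    (t := fun n => ![algebraMap k E (p₀ n), algebraMap k E (p₁ n), algebraMap k E (p₂ n)])
    (t0 := ![algebraMap k E q₀, algebraMap k E q₁, 0]) (by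
      refine (hz.pow 3).congr (fun n => ?_) ?_
      · rw [(hF n).cub, ez]
        simp only [Matrix.cons_val]
        abel
      · rw [pow_succ, pow_two, base_cub B, ez]
        simp only [Matrix.cons_val, zero_smul, add_zero, zero_add]
        abel)
  exact ⟨h1 2, h1 1, h1 0⟩

include hv in
theorem iM_lim' {q : Qt (up E a) (up E b)} (hq : star q = -q) :
    AV (SI E) F (fun n => iM (v n) (algebraMap k E (p₂ n)) (algebraMap k E (p₁ n))
      (algebraMap k E (p₀ n)) (z n) (scq q)) (scq q) := by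
  obtain ⟨h2, h1, h0⟩ := rel_lim B hF hz
  refine iM_lim SI_nonempty hz hv h2 h1 h0 (base_dsc B) (fun n => (hF n).inV) (inV_ofF v₀)
    (base_cubv B) (base_cub B) (scq_comm q z₀) ?_
  have e : (Alb.mat (Alb.ofF v₀ : AlbL E a b c) : MQ E a b) = toMQ v₀ := mat_ofF B.v0t
  rw [e, scq_star, hq, scq_neg, Matrix.neg_mul, Matrix.mul_neg, scq_comm]

/-- The coefficients of a family of elements with scalar limit. -/
theorem coef_lim {y : X → MQ E a b} {x : k} (hy : AV (SI E) F y (algebraMap k E x • 1))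
    {t : X → Fin 3 → k} (ht : ∀ n, y n = ez (z n) (fun i => algebraMap k E (t n i))) :
    AE (SI E) F (fun n => algebraMap k E (t n 0)) (algebraMap k E x) ∧
    AE (SI E) F (fun n => algebraMap k E (t n 1)) (algebraMap k E 0) ∧
    AE (SI E) F (fun n => algebraMap k E (t n 2)) (algebraMap k E 0) := by
  have h1 := ez_coef SI_nonempty hz (base_ind B)
    (t := fun n i => algebraMap k E (t n i)) (t0 := ![algebraMap k E x, 0, 0]) (by
      refine hy.congr (fun n => ht n) ?_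
      rw [ez]
      simp only [Matrix.cons_val, zero_smul, add_zero])
  rw [map_zero]
  exact ⟨h1 0, h1 1, h1 2⟩

/-- The values of the coefficients at the real roots. -/
theorem real_lim {y : X → MQ E a b} {x : k} (hy : AV (SI E) F y (algebraMap k E x • 1))
    {t : X → Fin 3 → k} (ht : ∀ n, y n = ez (z n) (fun i => algebraMap k E (t n i))) (hx : x ≠ 0) :
    ∀ᶠ n in F, t n ≠ 0 ∧ ∀ (τ : k →+* ℝ) (r : ℝ), r ^ 3 = τ (p₂ n) * r ^ 2 + τ (p₁ n) * r +
      τ (p₀ n) → |τ (t n 0) + τ (t n 1) * r + τ (t n 2) * r ^ 2 - τ x| < |τ x| := by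
  obtain ⟨h2, h1, h0⟩ := rel_lim B hF hz
  obtain ⟨g0, g1, g2⟩ := coef_lim B hF hz hy ht
  have hne : ∀ᶠ n in F, t n ≠ 0 := by
    filter_upwards [g0.eventually_ne SI_nonempty ((map_ne_zero (algebraMap k E)).mpr hx)] with n hn h
    apply hn
    rw [h, Pi.zero_apply, map_zero]
  have hall : ∀ᶠ n in F, ∀ (τ : k →+* ℝ) (r : ℝ), r ^ 3 = τ (p₂ n) * r ^ 2 + τ (p₁ n) * r +
      τ (p₀ n) → |τ (t n 0) + τ (t n 1) * r + τ (t n 2) * r ^ 2 - τ x| < |τ x| := by
    rw [eventually_all]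
    intro τ
    have e2 := tendsto_real (E := E) (f := p₂) (x := (0 : k)) (by rw [map_zero]; exact h2) τ
    have e1 := tendsto_real h1 τ
    have e0 := tendsto_real h0 τ
    have f0 := tendsto_real g0 τ
    have f1 := tendsto_real g1 τ
    have f2 := tendsto_real g2 τ
    rw [map_zero] at f1 f2
    exact ev_root e2 e1 e0 f0 f1 f2 (abs_pos.mpr ((map_ne_zero τ).mpr hx))
  exact hne.and hall

end lim

section near

theorem exists_near {D : Type} {G P : MQ E a b → AlbL E a b c → k → k → k → D → Prop}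
    {Z0 : MQ E a b} {V0 : AlbL E a b c} (hV0 : InVs V0)
    (h : ∀ (z : ℕ → MQ E a b) (v : ℕ → AlbL E a b c) (p₂ p₁ p₀ : ℕ → k) (d : ℕ → D),
      (∀ n, Frame ρ σ lam g (z n) (v n) (p₂ n) (p₁ n) (p₀ n)) →
      (∀ n, G (z n) (v n) (p₂ n) (p₁ n) (p₀ n) (d n)) →
      AV (SI E) atTop z Z0 → AV (SI E) atTop v V0 →
      ∃ n, P (z n) (v n) (p₂ n) (p₁ n) (p₀ n) (d n)) :
    ∃ t : ℝ, 0 < t ∧ ∀ (z : MQ E a b) (v : AlbL E a b c) (p₂ p₁ p₀ : k) (d : D),
      Frame ρ σ lam g z v p₂ p₁ p₀ → G z v p₂ p₁ p₀ d → NearM t Z0 z → NearV t V0 v →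
      P z v p₂ p₁ p₀ d := by
  by_contra hcon
  have h1 : ∀ n : ℕ, ∃ (z : MQ E a b) (v : AlbL E a b c) (p₂ p₁ p₀ : k) (d : D),
      Frame ρ σ lam g z v p₂ p₁ p₀ ∧ G z v p₂ p₁ p₀ d ∧ NearM (1 / ((n : ℝ) + 1)) Z0 z ∧
      NearV (1 / ((n : ℝ) + 1)) V0 v ∧ ¬ P z v p₂ p₁ p₀ d := by
    intro n
    by_contra hn
    apply hcon
    refine ⟨1 / ((n : ℝ) + 1), by positivity, fun z v p₂ p₁ p₀ d h1 h2 h3 h4 => ?_⟩
    by_contra h5
    exact hn ⟨z, v, p₂, p₁, p₀, d, h1, h2, h3, h4, h5⟩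
  choose z v p₂ p₁ p₀ d h2 h3 h4 h5 h6 using h1
  obtain ⟨n, hn⟩ := h z v p₂ p₁ p₀ d h2 h3
    (AV_mq fun w => squeeze_zero (fun n => mnm_nonneg _ _) (fun n => h4 n w)
      tendsto_one_div_add_atTop_nhds_zero_nat)
    (AV_vec (fun n => (h2 n).inV) hV0 fun w =>
      squeeze_zero (fun n => E6H.nm_nonneg _ _) (fun n => h5 n w)
      tendsto_one_div_add_atTop_nhds_zero_nat)
  exact h6 n hn

variable (B : Base ρ σ lam g a b c z₀ v₀ q₁ q₀ w₀)

include B

theorem near_ind : ∃ t : ℝ, 0 < t ∧ ∀ (z : MQ E a b) (v : AlbL E a b c) (p₂ p₁ p₀ : k),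
    Frame ρ σ lam g z v p₂ p₁ p₀ → NearM t (toMQ z₀) z → NearV t (Alb.ofF v₀) v →
    (∀ t : Fin 3 → E, ez z t = 0 → t = 0) ∧ w₀ (algebraMap k E (dsc p₂ p₁ p₀)) < 0 := by
  obtain ⟨t, ht, h⟩ := exists_near (D := Unit) (ρ := ρ) (σ := σ) (lam := lam) (g := g)
    (G := fun _ _ _ _ _ _ => True)
    (P := fun (z : MQ E a b) (v : AlbL E a b c) p₂ p₁ p₀ _ =>
      (∀ t : Fin 3 → E, ez z t = 0 → t = 0) ∧ w₀ (algebraMap k E (dsc p₂ p₁ p₀)) < 0)
    (Z0 := toMQ z₀) (V0 := Alb.ofF v₀) (inV_ofF v₀) (by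
      intro z v p₂ p₁ p₀ _ hF _ hz hv
      obtain ⟨h2, h1, h0⟩ := rel_lim B hF hz
      have h3 := tendsto_real (E := E) (f := p₂) (x := (0 : k)) (by rw [map_zero]; exact h2)
        (w₀.comp (algebraMap k E))
      have h4 := tendsto_real h1 (w₀.comp (algebraMap k E))
      have h5 := tendsto_real h0 (w₀.comp (algebraMap k E))
      have h6 : Tendsto (fun n => w₀ (algebraMap k E (dsc (p₂ n) (p₁ n) (p₀ n)))) atTop
          (𝓝 (w₀ (algebraMap k E (dsc 0 q₁ q₀)))) := by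
        have e : ∀ x y t : k, w₀ (algebraMap k E (dsc x y t)) =
            dsc (w₀ (algebraMap k E x)) (w₀ (algebraMap k E y)) (w₀ (algebraMap k E t)) :=
          fun x y t => by rw [map_dsc, map_dsc]
        simp only [e]
        exact (((((h3.pow 2).mul (h4.pow 2)).add ((h4.pow 3).const_mul 4)).sub
          (((h3.pow 3).const_mul 4).mul h5)).sub (((h3.const_mul 18).mul h4).mul h5)).sub
          ((h5.pow 2).const_mul 27)
      exact ((ez_ind SI_nonempty hz (base_ind B)).and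
        (h6.eventually (gt_mem_nhds B.neg))).exists)
  exact ⟨t, ht, fun z v p₂ p₁ p₀ h1 h2 h3 => h z v p₂ p₁ p₀ () h1 trivial h2 h3⟩

/-- The first element. -/
noncomputable def i1 (z : MQ E a b) (v : AlbL E a b c) (p₂ p₁ p₀ : k) : MQ E a b :=
  iM v (algebraMap k E p₂) (algebraMap k E p₁) (algebraMap k E p₀) z
    (scq (qi (up E a) (up E b)))

/-- The second element, before the orthogonalisation. -/
noncomputable def j0 (z : MQ E a b) (v : AlbL E a b c) (p₂ p₁ p₀ : k) : MQ E a b :=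
  iM v (algebraMap k E p₂) (algebraMap k E p₁) (algebraMap k E p₀) z
    (scq (qj (up E a) (up E b)))

/-- The second element. -/
noncomputable def j1 (z : MQ E a b) (v : AlbL E a b c) (p₂ p₁ p₀ : k) : MQ E a b :=
  i1 z v p₂ p₁ p₀ * j0 z v p₂ p₁ p₀ - j0 z v p₂ p₁ p₀ * i1 z v p₂ p₁ p₀

theorem near_val : ∃ t : ℝ, 0 < t ∧ ∀ (z : MQ E a b) (v : AlbL E a b c) (p₂ p₁ p₀ : k)
    (r s : Fin 3 → k),
    Frame ρ σ lam g z v p₂ p₁ p₀ →
    i1 z v p₂ p₁ p₀ * i1 z v p₂ p₁ p₀ = ez z (fun i => algebraMap k E (r i)) →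
    j1 z v p₂ p₁ p₀ * j1 z v p₂ p₁ p₀ = ez z (fun i => algebraMap k E (s i)) →
    NearM t (toMQ z₀) z → NearV t (Alb.ofF v₀) v →
    r ≠ 0 ∧ s ≠ 0 ∧ ∀ (τ : k →+* ℝ) (x : ℝ), x ^ 3 = τ p₂ * x ^ 2 + τ p₁ * x + τ p₀ →
      |τ (r 0) + τ (r 1) * x + τ (r 2) * x ^ 2 - τ a| < |τ a| ∧
      |τ (s 0) + τ (s 1) * x + τ (s 2) * x ^ 2 - τ (-(4 * a * b))| < |τ (-(4 * a * b))| := by
  obtain ⟨t, ht, h⟩ := exists_near (D := (Fin 3 → k) × (Fin 3 → k)) (ρ := ρ) (σ := σ) (lam := lam)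
    (g := g)
    (G := fun (z : MQ E a b) (v : AlbL E a b c) p₂ p₁ p₀ d =>
      i1 z v p₂ p₁ p₀ * i1 z v p₂ p₁ p₀ = ez z (fun i => algebraMap k E (d.1 i)) ∧
      j1 z v p₂ p₁ p₀ * j1 z v p₂ p₁ p₀ = ez z (fun i => algebraMap k E (d.2 i)))
    (P := fun (z : MQ E a b) (v : AlbL E a b c) p₂ p₁ p₀ d =>
      d.1 ≠ 0 ∧ d.2 ≠ 0 ∧ ∀ (τ : k →+* ℝ) (x : ℝ), x ^ 3 = τ p₂ * x ^ 2 + τ p₁ * x + τ p₀ →
      |τ (d.1 0) + τ (d.1 1) * x + τ (d.1 2) * x ^ 2 - τ a| < |τ a| ∧
      |τ (d.2 0) + τ (d.2 1) * x + τ (d.2 2) * x ^ 2 - τ (-(4 * a * b))| < |τ (-(4 * a * b))|)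
    (Z0 := toMQ z₀) (V0 := Alb.ofF v₀) (inV_ofF v₀) (by
      intro z v p₂ p₁ p₀ d hF hG hz hv
      have hi := iM_lim' B hF hz hv (star_qi (up E a) (up E b))
      have hj := iM_lim' B hF hz hv (star_qj (up E a) (up E b))
      have e1 : (scq (qi (up E a) (up E b)) : MQ E a b) * scq (qi (up E a) (up E b)) =
          algebraMap k E (a : k) • 1 := by
        rw [scq_mul, qi_sq, scq, ← Matrix.diagonal_one, ← Matrix.diagonal_smul]
        congr 1
        funext i
        rw [Pi.smul_apply, Algebra.smul_def, mul_one]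
        rfl
      have hA := (hi.mul hi).congr (fun _ => rfl) e1
      have hB1 := ((hi.mul hj).sub (hj.mul hi))
      have hB := (hB1.mul hB1).congr (fun _ => rfl) (scq_comm_sq (E := E) (a := a) (b := b))
      have r1 := real_lim B hF hz hA (t := fun n => (d n).1) (fun n => (hG n).1) a.ne_zero
      have r2 := real_lim B hF hz hB (t := fun n => (d n).2) (fun n => (hG n).2)
        (neg_ne_zero.mpr (mul_ne_zero (mul_ne_zero (by norm_num) a.ne_zero) b.ne_zero))
      obtain ⟨n, h1, h2⟩ := (r1.and r2).exists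
      exact ⟨n, h1.1, h2.1, fun τ x hx => ⟨h1.2 τ x hx, h2.2 τ x hx⟩⟩)
  exact ⟨t, ht, fun z v p₂ p₁ p₀ r s h1 h2 h3 h4 h5 =>
    h z v p₂ p₁ p₀ (r, s) h1 ⟨h2, h3⟩ h4 h5⟩

end near

section cert

variable (W : WH ρ σ lam g th s kap a b c)

theorem toW_pj (p₂ p₁ p₀ : k) (x y : BW W) : toW W (pj p₂ p₁ p₀ x y) =
    pj (algebraMap k E p₂) (algebraMap k E p₁) (algebraMap k E p₀) (toW W x) (toW W y) := by
  simp only [pj, gd, dq, toW_smul_k, map_add, map_sub, map_mul, map_neg, map_pow, map_one,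
    map_ofNat, map_inv₀, map_dsc]

theorem star_smul_k (t : k) (x : BW W) : star (t • x) = t • star x := by
  apply toW_injective W
  rw [toW_star, toW_smul_k, toW_smul_k, adjM_smul, toW_star, AlgEquiv.commutes]

theorem star_pj {p₂ p₁ p₀ : k} {x y : BW W}
    (hz : x * x * x = p₂ • (x * x) + p₁ • x + p₀ • (1 : BW W)) (hx : star x = x)
    (hy : star y = -y) : star (pj p₂ p₁ p₀ x y) = -pj p₂ p₁ p₀ x y := by
  have h1 : star (gd p₂ p₁ p₀ x) = gd p₂ p₁ p₀ x := by
    simp only [gd, star_add, star_smul_k, star_mul, star_one, hx]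
  have h2 : star (dq p₂ p₁ x y) = -dq p₂ p₁ x y := by
    simp only [dq, star_add, star_sub, star_smul_k, star_mul, hx, hy]
    simp only [mul_neg, neg_mul, smul_neg, mul_assoc, smul_add]
    abel
  have h3 : gd p₂ p₁ p₀ x * dq p₂ p₁ x y = dq p₂ p₁ x y * gd p₂ p₁ p₀ x :=
    (gd_comm (dq_comm hz y).symm).symm
  rw [pj, star_smul_k, star_mul, h1, h2, neg_mul, ← h3, smul_neg]

/-- The pure elements of the centraliser. -/
theorem exists_pure {F : Type} [Field F] [NumberField F] [Algebra k F] {ι : F →ₐ[k] BW W} {x0 : F}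
    {v : AlbL E a b c} (H : FrW W ι x0 v) {p₂ p₁ p₀ : k}
    (hz : x0 * x0 * x0 = p₂ • (x0 * x0) + p₁ • x0 + p₀ • 1) {y : BW W} (hy : star y = -y) :
    ∃ I : BW W, I ∈ One.Cen ι ∧ barW W v I = -I ∧ star I = -I ∧
      toW W I = iM v (algebraMap k E p₂) (algebraMap k E p₁) (algebraMap k E p₀)
        (toW W (ι x0)) (toW W y) := by
  have hz' : ι x0 * ι x0 * ι x0 = p₂ • (ι x0 * ι x0) + p₁ • ι x0 + p₀ • (1 : BW W) := by
    rw [← map_mul, ← map_mul, hz, map_add, map_add, map_smul, map_smul, map_smul, map_one]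
  obtain ⟨x, hx⟩ : ∃ x, x = pj p₂ p₁ p₀ (ι x0) y := ⟨_, rfl⟩
  have hxm : x ∈ One.Cen ι := by
    rw [H.mem_iff, ← map_mul, ← map_mul, hx, pj_comm hz']
  have hxs : star x = -x := by
    rw [hx]
    exact star_pj W hz' H.sym hy
  have HB := H.bar
  have hbm := HB.mem _ hxm
  obtain ⟨t, ht⟩ : ∃ t : F, t = algebraMap k F 2⁻¹ := ⟨_, rfl⟩
  have htm : ι t ∈ One.Cen ι := HB.ι_mem t
  have hym : x - barW W v x ∈ One.Cen ι := sub_mem hxm hbm
  have hyb : barW W v (x - barW W v x) = -(x - barW W v x) := by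
    rw [HB.sub hxm hbm, HB.inv _ hxm]
    abel
  have hys : star (x - barW W v x) = -(x - barW W v x) := by
    rw [star_sub, ← HB.st _ hxm, hxs, HB.neg hxm]
    abel
  refine ⟨ι t * (x - barW W v x), mul_mem htm hym, ?_, ?_, ?_⟩
  · rw [HB.mul _ htm _ hym, HB.fix, hyb, neg_mul, HB.ιc hym]
  · rw [star_mul, HB.sym, hys, neg_mul, HB.ιc hym]
  · have h1 : ι t * (x - barW W v x) = (2⁻¹ : k) • (x - barW W v x) := by
      rw [ht, AlgHom.commutes, Algebra.smul_def]
    rw [h1, toW_smul_k, map_inv₀, map_ofNat, map_sub, H.toW_bar hxm, iM, hx, toW_pj]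

/-- The commutator of two pure elements. -/
theorem exists_comm {F : Type} [Field F] [NumberField F] [Algebra k F] {ι : F →ₐ[k] BW W} {x0 : F}
    {v : AlbL E a b c} (H : FrW W ι x0 v) {I J : BW W} (hI : I ∈ One.Cen ι) (hJ : J ∈ One.Cen ι)
    (bI : barW W v I = -I) (bJ : barW W v J = -J) (sI : star I = -I) (sJ : star J = -J) :
    I * J - J * I ∈ One.Cen ι ∧ barW W v (I * J - J * I) = -(I * J - J * I) ∧
      star (I * J - J * I) = -(I * J - J * I) := by
  have HB := H.bar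
  refine ⟨sub_mem (mul_mem hI hJ) (mul_mem hJ hI), ?_, ?_⟩
  · rw [HB.sub (mul_mem hI hJ) (mul_mem hJ hI), HB.mul _ hI _ hJ, HB.mul _ hJ _ hI, bI, bJ]
    noncomm_ring
  · rw [star_sub, star_mul, star_mul, sI, sJ]
    noncomm_ring

/-- The square of a pure element. -/
theorem exists_sq {F : Type} [Field F] [NumberField F] [Algebra k F] {ι : F →ₐ[k] BW W} {x0 : F}
    {v : AlbL E a b c} (H : FrW W ι x0 v) {I : BW W} (hI : I ∈ One.Cen ι)
    (bI : barW W v I = -I) (sI : star I = -I) : ∃ α : F, I * I = ι α := by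
  by_cases h0 : I = 0
  · exact ⟨0, by rw [h0, mul_zero, map_zero]⟩
  · obtain ⟨α, hα⟩ := H.bar.sq ((map_ne_zero _).mpr kap.ne_zero) hI bI sI h0
    exact ⟨α, hα⟩

theorem sgn_near {x y : ℝ} (h : |x - y| < |y|) : x < 0 ↔ y < 0 := by
  rcases lt_trichotomy y 0 with hy | hy | hy
  · rw [abs_of_neg hy, abs_lt] at h
    constructor
    · exact fun _ => hy
    · intro _
      linarith
  · rw [hy, abs_zero] at h
    exact absurd h (not_lt.mpr (abs_nonneg _))
  · rw [abs_of_pos hy, abs_lt] at h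
    constructor
    · intro _
      linarith
    · intro _
      linarith

include W in
/-- **The certificate for the frames close to the standard frame.** -/
theorem near_cert2 (B : Base ρ σ lam g a b c z₀ v₀ q₁ q₀ w₀) : ∃ t : ℝ, 0 < t ∧
    ∀ (z : MQ E a b) (v : AlbL E a b c) (p₂ p₁ p₀ : k), Frame ρ σ lam g z v p₂ p₁ p₀ →
      NearM t (toMQ z₀) z → NearV t (Alb.ofF v₀) v →
      ∃ (i₁ j₁ : MQ E a b) (A A' : Fin 3 → k),
        H684.Cert2 ρ σ lam g (kap : k) z i₁ j₁ v p₂ p₁ p₀ A A' := by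
  obtain ⟨t, ht, h⟩ := near_ind B
  obtain ⟨t', ht', h'⟩ := near_val B
  refine ⟨min t t', lt_min ht ht', fun z v p₂ p₁ p₀ hF hz hv => ?_⟩
  obtain ⟨hind, hneg⟩ := h z v p₂ p₁ p₀ hF (fun w => (hz w).trans (min_le_left _ _))
    (fun w => (hv w).trans (min_le_left _ _))
  have hval := fun r s h1 h2 => h' z v p₂ p₁ p₀ r s hF h1 h2
    (fun w => (hz w).trans (min_le_right _ _)) (fun w => (hv w).trans (min_le_right _ _))
  obtain ⟨F, i1, i2, i3, ι, x0, H, hx0, h3⟩ := exists_frW W hF.inD hF.sym hF.inV hF.ne hF.com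
    (p := ![p₀, p₁, p₂]) (by
      rw [hF.cub, ez]
      change _ = algebraMap k E p₀ • (1 : MQ E a b) + algebraMap k E p₁ • z +
        algebraMap k E p₂ • z ^ 2
      abel) (by
      intro t ht
      have h1 := hind _ ht
      funext i
      exact (map_eq_zero _).mp (congrFun h1 i))
  have hxx : x0 * x0 * x0 = p₂ • (x0 * x0) + p₁ • x0 + p₀ • 1 := by
    have hinj : Function.Injective ι := ι.toRingHom.injective
    apply hinj
    apply toW_injective W
    rw [map_add ι, map_add ι, map_smul ι, map_smul ι, map_smul ι, map_add (toW W),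
      map_add (toW W), toW_smul_k, toW_smul_k, toW_smul_k]
    simp only [map_mul, map_one]
    rw [hx0, ← pow_two, ← pow_succ, hF.cub]
  obtain ⟨i, j, si, sj, -, -, -, ti, tj⟩ := exists_frQ W
  obtain ⟨I, hI, bI, sI, tI⟩ := exists_pure W H hxx si
  obtain ⟨J, hJ, bJ, sJ, tJ⟩ := exists_pure W H hxx sj
  rw [hx0, ti] at tI
  rw [hx0, tj] at tJ
  obtain ⟨hK, bK, sK⟩ := exists_comm W H hI hJ bI bJ sI sJ
  obtain ⟨α, hα⟩ := exists_sq W H hI bI sI
  obtain ⟨β, hβ⟩ := exists_sq W H hK bK sK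
  obtain ⟨A, hA⟩ := H.gen α
  obtain ⟨A', hA'⟩ := H.gen β
  obtain ⟨K, hKd⟩ : ∃ K, K = I * J - J * I := ⟨_, rfl⟩
  rw [← hKd] at hK bK sK hβ
  have tI' : H541.i1 z v p₂ p₁ p₀ = toW W I := tI.symm
  have tJ' : H541.j0 z v p₂ p₁ p₀ = toW W J := tJ.symm
  have tK : H541.j1 z v p₂ p₁ p₀ = toW W K := by
    rw [H541.j1, tI', tJ', hKd, map_sub, map_mul, map_mul]
  have eA : toW W I * toW W I = ez z (fun i => algebraMap k E (A i)) := by
    rw [← map_mul, hα, hA, toW_ez, hx0]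
  have eA' : toW W K * toW W K = ez z (fun i => algebraMap k E (A' i)) := by
    rw [← map_mul, hβ, hA', toW_ez, hx0]
  obtain ⟨nA, nA', hv⟩ := hval A A' (by rw [tI', eA]) (by rw [tK, eA'])
  have hcom : ∀ x : BW W, x ∈ One.Cen ι → toW W x * z = z * toW W x := by
    intro x hx
    have h1 := H.mem_iff.mp hx
    rwa [hx0] at h1
  refine ⟨toW W I, toW W K, A, A', ⟨hF, ?_, ?_, ?_, inD_toW W I, inD_toW W K, hcom I hI,
    hcom K hK, ?_, ?_, ?_, eA, eA', nA, nA', ?_, ?_⟩⟩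
  · intro t₀ t₁ t₂ h
    have h1 := hind ![t₀, t₁, t₂] h
    exact ⟨congrFun h1 0, congrFun h1 1, congrFun h1 2⟩
  · rintro ⟨y, hy⟩
    rw [hy, map_mul, map_mul] at hneg
    exact absurd hneg (not_lt.mpr (mul_self_nonneg _))
  · rintro ⟨y, hy⟩
    have h1 := congrArg (fun x => w₀ (algebraMap k E x)) hy
    simp only [map_mul] at h1
    rw [← W.th2, map_pow] at h1
    have h2 : 0 < w₀ th ^ 2 := by
      have := (map_ne_zero w₀).mpr W.th_ne
      positivity
    have h4 := mul_neg_of_neg_of_pos hneg h2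
    rw [h1] at h4
    exact absurd h4 (not_lt.mpr (mul_self_nonneg _))
  · rw [← toW_star, sI, map_neg]
  · rw [← toW_star, sK, map_neg]
  · rw [← map_mul, ← map_mul, ← map_neg]
    congr 1
    have h1 : I * I * J = J * (I * I) := by rw [hα, H.bar.ιc hJ]
    rw [hKd]
    calc I * (I * J - J * I) = I * I * J - I * J * I := by noncomm_ring
      _ = J * (I * I) - I * J * I := by rw [h1]
      _ = _ := by noncomm_ring
  · intro τ x hx h1 h2
    obtain ⟨h3, h4⟩ := hv τ x hx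
    have h5 := (sgn_near h3).mp h1
    have h6 := (sgn_near h4).mp h2
    rw [map_neg, map_mul, map_mul, map_ofNat] at h6
    refine ⟨h5, ?_⟩
    nlinarith
  · intro τ x hx _ h1 h2
    obtain ⟨h3, h4⟩ := hv τ x hx
    refine ⟨(sgn_near h3).mpr h1, (sgn_near h4).mpr ?_⟩
    rw [map_neg, map_mul, map_mul, map_ofNat]
    nlinarith [mul_pos_of_neg_of_neg h1 h2]

end cert

end Vale.Agent.P011.E6W.H541
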