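import Vale.Agent.P011.E6W.H541.Dsc
import Mathlib.Tactic.FieldSimp

/-!
The projection onto the centraliser of an element with a cubic relation.
-/

namespace Vale.Agent.P011.E6W.H541

variable {F R : Type} [Field F] [Ring R] [Algebra F R]

/-- The derivation-like sum, which commutes with `z`. -/
def dq (p₂ p₁ : F) (z y : R) : R :=
  z * z * y + z * y * z + y * (z * z) - p₂ • (z * y + y * z) - p₁ • y

theorem dq_comm {p₂ p₁ p₀ : F} {z : R}
    (hz : z * z * z = p₂ • (z * z) + p₁ • z + p₀ • (1 : R)) (y : R) :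
    z * dq p₂ p₁ z y = dq p₂ p₁ z y * z := by
  have h1 : z * dq p₂ p₁ z y - dq p₂ p₁ z y * z =
      (z * z * z - p₂ • (z * z) - p₁ • z) * y - y * (z * z * z - p₂ • (z * z) - p₁ • z) := by
    rw [dq]
    simp only [mul_add, mul_sub, add_mul, sub_mul, mul_smul_comm, smul_mul_assoc, mul_assoc,
      smul_add]
    abel
  have h2 : z * z * z - p₂ • (z * z) - p₁ • z = p₀ • (1 : R) := by
    rw [hz]
    abel
  rw [h2, smul_mul_assoc, mul_smul_comm, one_mul, mul_one, sub_self] at h1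
  exact sub_eq_zero.mp h1

theorem dq_of_comm {p₂ p₁ : F} {z y : R} (h : y * z = z * y) :
    dq p₂ p₁ z y = fd p₂ p₁ z * y := by
  rw [dq, fd, mul_assoc z y z, h, ← mul_assoc z z y, ← mul_assoc y z z, h, mul_assoc z y z, h,
    ← mul_assoc z z y]
  simp only [sub_mul, smul_mul_assoc, one_mul]
  module

theorem gd_comm {p₂ p₁ p₀ : F} {z w : R} (h : w * z = z * w) :
    w * gd p₂ p₁ p₀ z = gd p₂ p₁ p₀ z * w := by
  have h2 : w * (z * z) = z * z * w := by rw [← mul_assoc, h, mul_assoc, h, ← mul_assoc]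
  rw [gd, mul_add, mul_add, add_mul, add_mul, mul_smul_comm, mul_smul_comm, mul_smul_comm,
    smul_mul_assoc, smul_mul_assoc, smul_mul_assoc, mul_one, one_mul, h, h2]

theorem fd_self {p₂ p₁ : F} {z : R} : z * fd p₂ p₁ z = fd p₂ p₁ z * z := fd_comm rfl

/-- The projection onto the centraliser. -/
def pj (p₂ p₁ p₀ : F) (z y : R) : R :=
  (-dsc p₂ p₁ p₀)⁻¹ • (gd p₂ p₁ p₀ z * dq p₂ p₁ z y)

theorem pj_comm {p₂ p₁ p₀ : F} {z : R}
    (hz : z * z * z = p₂ • (z * z) + p₁ • z + p₀ • (1 : R)) (y : R) :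
    z * pj p₂ p₁ p₀ z y = pj p₂ p₁ p₀ z y * z := by
  rw [pj, mul_smul_comm, smul_mul_assoc, ← mul_assoc, gd_comm rfl, mul_assoc, dq_comm hz,
    ← mul_assoc]

theorem pj_of_comm {p₂ p₁ p₀ : F} {z y : R}
    (hz : z * z * z = p₂ • (z * z) + p₁ • z + p₀ • (1 : R)) (hd : dsc p₂ p₁ p₀ ≠ 0)
    (h : y * z = z * y) : pj p₂ p₁ p₀ z y = y := by
  rw [pj, dq_of_comm h, ← mul_assoc, ← gd_comm fd_self.symm, fd_mul_gd hz, smul_mul_assoc,
    one_mul, smul_smul, inv_mul_cancel₀ (neg_ne_zero.mpr hd), one_smul]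

end Vale.Agent.P011.E6W.H541
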