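import Vale.Agent.P011.E6W.H541.NearL
import Vale.Agent.P011.E6W.H541.Prj
import Vale.Agent.P011.E6W.H183.SqRes
import Vale.Agent.P011.E6W.H183.BarM
import Mathlib.NumberTheory.NumberField.InfinitePlace.Embeddings

/-!
The limits of the elements of the centraliser of a symmetric element.
-/

open NumberField Filter Topology

set_option linter.unusedSectionVars false

namespace Vale.Agent.P011.E6W.H541

open Vale.Agent.P011.MPQ hiding mat
open Vale.Agent.P011.D4 Vale.Agent.P011.D4.Oct Vale.Agent.P011.E6 Alb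
open Vale.Agent.P011.D4W (AE Stb)
open Vale.Agent.P011.E6I (MQ toMQ InVs)
open Vale.Agent.P011.E6H (nm qnm)
open Vale.Agent.P011.E6W.H619 Vale.Agent.P011.E6W.H183
open Matrix

section gen

variable {E R X : Type} [Field E] [Ring R] [Algebra E R] [Module.Finite E R]
  {S : Set (AbsoluteValue E ℝ)} {F : Filter X} {P2 P1 P0 : X → E} {Q2 Q1 Q0 : E}
  (h2 : AE S F P2 Q2) (h1 : AE S F P1 Q1) (h0 : AE S F P0 Q0)

include h2 h1 h0 in
theorem dsc_lim : AE S F (fun n => dsc (P2 n) (P1 n) (P0 n)) (dsc Q2 Q1 Q0) := by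
  have c := fun x : E => AE.const S F x
  exact (((((h2.pow 2).mul (h1.pow 2)).add ((c 4).mul (h1.pow 3))).sub
    (((c 4).mul (h2.pow 3)).mul h0)).sub ((((c 18).mul h2).mul h1).mul h0)).sub
    ((c 27).mul (h0.pow 2))

variable {z y : X → R} {z0 y0 : R} (hz : AV S F z z0) (hy : AV S F y y0)

include h2 h1 h0 hz in
theorem gd_lim : AV S F (fun n => gd (P2 n) (P1 n) (P0 n) (z n)) (gd Q2 Q1 Q0 z0) := by
  have c := fun x : E => AE.const S F x
  have e1 := ((h1.mul (h2.pow 2)).add ((c 4).mul (h1.pow 2))).sub (((c 3).mul h0).mul h2)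
  have e2 := (((c 2).mul (h2.pow 3)).add (((c 7).mul h1).mul h2)).add ((c 9).mul h0)
  have e3 := ((c 2).mul (h2.pow 2)).neg.sub ((c 6).mul h1)
  exact ((AV.smul e1 (AV.const S F (1 : R))).add (AV.smul e2 hz)).add (AV.smul e3 (hz.mul hz))

include h2 h1 hz hy in
theorem dq_lim : AV S F (fun n => dq (P2 n) (P1 n) (z n) (y n)) (dq Q2 Q1 z0 y0) :=
  ((((((hz.mul hz).mul hy).add ((hz.mul hy).mul hz)).add (hy.mul (hz.mul hz))).sub
    (AV.smul h2 ((hz.mul hy).add (hy.mul hz)))).sub (AV.smul h1 hy))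

include h2 h1 h0 hz hy in
theorem pj_lim (hd : dsc Q2 Q1 Q0 ≠ 0) :
    AV S F (fun n => pj (P2 n) (P1 n) (P0 n) (z n) (y n)) (pj Q2 Q1 Q0 z0 y0) :=
  AV.smul ((dsc_lim h2 h1 h0).neg.inv (neg_ne_zero.mpr hd))
    ((gd_lim h2 h1 h0 hz).mul (dq_lim h2 h1 hz hy))

end gen

section root

/-- The real roots of a cubic polynomial are bounded. -/
theorem root_le {x p2 p1 p0 : ℝ} (h : x ^ 3 = p2 * x ^ 2 + p1 * x + p0) :
    |x| ≤ 1 + |p2| + |p1| + |p0| := by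
  have h2 := abs_nonneg p2
  have h1 := abs_nonneg p1
  have h0 := abs_nonneg p0
  rcases le_or_gt |x| 1 with hx | hx
  · linarith
  · have h3 : |x| ^ 3 ≤ |p2| * |x| ^ 2 + |p1| * |x| + |p0| := by
      calc |x| ^ 3 = |x ^ 3| := (abs_pow x 3).symm
        _ = |p2 * x ^ 2 + p1 * x + p0| := by rw [h]
        _ ≤ |p2 * x ^ 2| + |p1 * x| + |p0| := abs_add_three _ _ _
        _ = _ := by rw [abs_mul, abs_mul, abs_pow]
    have h4 : |x| ≤ |x| ^ 2 := by nlinarith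
    have h5 : 1 ≤ |x| ^ 2 := by nlinarith
    have h6 : |x| ^ 3 ≤ (|p2| + |p1| + |p0|) * |x| ^ 2 := by
      nlinarith [mul_le_mul_of_nonneg_left h4 h1, mul_le_mul_of_nonneg_left h5 h0]
    have h7 : |x| ≤ |p2| + |p1| + |p0| := by
      have h8 : 0 < |x| ^ 2 := by positivity
      have h9 : |x| * |x| ^ 2 ≤ (|p2| + |p1| + |p0|) * |x| ^ 2 := by
        calc |x| * |x| ^ 2 = |x| ^ 3 := by ring
          _ ≤ _ := h6
      exact le_of_mul_le_mul_right h9 h8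
    linarith

variable {X : Type} {F : Filter X}

/-- The values at the roots are close to the limit. -/
theorem ev_root {p2 p1 p0 t0 t1 t2 : X → ℝ} {q2 q1 q0 c : ℝ} (h2 : Tendsto p2 F (𝓝 q2))
    (h1 : Tendsto p1 F (𝓝 q1)) (h0 : Tendsto p0 F (𝓝 q0)) (g0 : Tendsto t0 F (𝓝 c))
    (g1 : Tendsto t1 F (𝓝 0)) (g2 : Tendsto t2 F (𝓝 0)) {ε : ℝ} (hε : 0 < ε) :
    ∀ᶠ n in F, ∀ x : ℝ, x ^ 3 = p2 n * x ^ 2 + p1 n * x + p0 n →
      |t0 n + t1 n * x + t2 n * x ^ 2 - c| < ε := by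
  obtain ⟨M, hM⟩ : ∃ M : X → ℝ, M = fun n => 1 + |p2 n| + |p1 n| + |p0 n| := ⟨_, rfl⟩
  have hM1 : Tendsto M F (𝓝 (1 + |q2| + |q1| + |q0|)) := by
    rw [hM]
    exact ((tendsto_const_nhds.add h2.abs).add h1.abs).add h0.abs
  have hM2 : Tendsto (fun n => |t0 n - c| + |t1 n| * M n + |t2 n| * M n ^ 2) F (𝓝 0) := by
    have e := (((g0.sub_const c).abs).add (g1.abs.mul hM1)).add (g2.abs.mul (hM1.pow 2))
    simpa using e
  filter_upwards [hM2.eventually (gt_mem_nhds hε)] with n hn x hx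
  have hxM : |x| ≤ M n := by
    rw [hM]
    exact root_le hx
  have h3 : |t1 n| * |x| ≤ |t1 n| * M n := mul_le_mul_of_nonneg_left hxM (abs_nonneg _)
  have h4 : |t2 n| * |x| ^ 2 ≤ |t2 n| * M n ^ 2 :=
    mul_le_mul_of_nonneg_left (pow_le_pow_left₀ (abs_nonneg x) hxM 2) (abs_nonneg _)
  calc |t0 n + t1 n * x + t2 n * x ^ 2 - c| = |(t0 n - c) + t1 n * x + t2 n * x ^ 2| := by ring_nf
    _ ≤ |t0 n - c| + |t1 n * x| + |t2 n * x ^ 2| := abs_add_three _ _ _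
    _ = |t0 n - c| + |t1 n| * |x| + |t2 n| * |x| ^ 2 := by rw [abs_mul, abs_mul, abs_pow]
    _ ≤ _ := by linarith
    _ < ε := hn

end root

section mq

variable {k E X : Type} [Field k] [Field E] [Algebra k E] {a b c : kˣ}
  {S : Set (AbsoluteValue E ℝ)} {F : Filter X}

/-- The conjugates converge. -/
theorem barM_lim (hne : S.Nonempty) {v : X → AlbL E a b c} {V0 : AlbL E a b c}
    {x : X → MQ E a b} {x0 : MQ E a b} (hv : AV S F v V0) (hx : AV S F x x0)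
    (hV : ∀ n, InVs (v n)) (hV0 : InVs V0) (h0 : cub V0 ≠ 0) :
    AV S F (fun n => barM (v n) (x n)) (barM V0 x0) := by
  have e : ∀ (u : AlbL E a b c) (y : MQ E a b), Alb.mat u * yᴴ * mi u = barM u y := by
    intro u y
    rw [mi, barM, Matrix.mul_smul]
  exact ((hv.mat.mul hx.ct).mul (mi_lim hne hv (Eventually.of_forall hV) hV0 h0)).congr
    (fun n => e _ _) (e _ _)

/-- The pure symmetrisation. -/
noncomputable def iM (v : AlbL E a b c) (p₂ p₁ p₀ : E) (z y : MQ E a b) : MQ E a b :=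
  (2⁻¹ : E) • (pj p₂ p₁ p₀ z y - barM v (pj p₂ p₁ p₀ z y))

variable [CharZero E] {z : X → MQ E a b} {v : X → AlbL E a b c} {P2 P1 P0 : X → E}
  {Z0 y : MQ E a b} {V0 : AlbL E a b c} {Q2 Q1 Q0 : E}

/-- **The limit of the pure elements of the centraliser.** -/
theorem iM_lim (hne : S.Nonempty) (hz : AV S F z Z0) (hv : AV S F v V0)
    (h2 : AE S F P2 Q2) (h1 : AE S F P1 Q1) (h0 : AE S F P0 Q0) (hd : dsc Q2 Q1 Q0 ≠ 0)
    (hV : ∀ n, InVs (v n)) (hV0 : InVs V0) (hc0 : cub V0 ≠ 0)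
    (hZ : Z0 * Z0 * Z0 = Q2 • (Z0 * Z0) + Q1 • Z0 + Q0 • 1) (hy : y * Z0 = Z0 * y)
    (hyv : -y * Alb.mat V0 = Alb.mat V0 * yᴴ) :
    AV S F (fun n => iM (v n) (P2 n) (P1 n) (P0 n) (z n) y) y := by
  have e1 := pj_lim h2 h1 h0 hz (AV.const S F y) hd
  have e2 := barM_lim hne hv e1 hV hV0 hc0
  have e3 := AV.smul (AE.const S F (2⁻¹ : E)) (e1.sub e2)
  refine e3.congr (fun n => rfl) ?_
  rw [pj_of_comm hZ hd hy, barM_eq hV0 hc0 hyv, sub_neg_eq_add, ← two_smul E y, smul_smul,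
    inv_mul_cancel₀ two_ne_zero, one_smul]

end mq

end Vale.Agent.P011.E6W.H541
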