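import Vale.Agent.P011.E6W.Defs
import Vale.Agent.P011.E6W.H619.LimM

/-!
Limits of the matrices which are close at the archimedean places.
-/

open NumberField Filter Topology

set_option linter.unusedSectionVars false

namespace Vale.Agent.P011.E6W.H541

open Vale.Agent.P011.MPQ hiding mat
open Vale.Agent.P011.D4 Vale.Agent.P011.D4.Oct Vale.Agent.P011.E6
open Vale.Agent.P011.D4W (AE Stb)
open Vale.Agent.P011.E6I (MQ toMQ InVs)
open Vale.Agent.P011.E6H (nm qnm)
open Vale.Agent.P011.E6W.H619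
open Matrix

section si

variable {k E X : Type} [Field k] [Field E] [Algebra k E] {F : Filter X}

/-- The absolute values at the complex embeddings. -/
def SI (E : Type) [Field E] : Set (AbsoluteValue E ℝ) := {p | ∃ w : E →+* ℂ, ∀ x, p x = ‖w x‖}

theorem mem_SI (w : E →+* ℂ) : ∃ p ∈ SI E, ∀ x, p x = ‖w x‖ :=
  ⟨place w, ⟨w, fun x => place_apply w x⟩, fun x => place_apply w x⟩

theorem SI_nonempty [NumberField E] : (SI E).Nonempty := by
  obtain ⟨w⟩ : Nonempty (E →+* ℂ) := inferInstance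
  obtain ⟨p, hp, -⟩ := mem_SI w
  exact ⟨p, hp⟩

theorem Stb_SI (r : E ≃ₐ[k] E) : Stb (SI E) r := by
  rintro p ⟨w, hw⟩
  obtain ⟨p', hp', h⟩ := mem_SI (w.comp (r : E →+* E))
  refine ⟨p', hp', fun ε hε => ⟨ε, hε, fun z hz => ?_⟩⟩
  rw [hw]
  rw [h] at hz
  exact hz

theorem AE_SI {f : X → E} {x : E} :
    AE (SI E) F f x ↔ ∀ w : E →+* ℂ, Tendsto (fun n => ‖w (f n) - w x‖) F (𝓝 0) := by
  constructor
  · intro h w
    obtain ⟨p, hp, hw⟩ := mem_SI w
    refine (h p hp).congr fun n => ?_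
    rw [hw, map_sub]
  · rintro h p ⟨w, hw⟩
    refine (h w).congr fun n => ?_
    rw [hw, map_sub]

/-- The limits at the real embeddings of `k`. -/
theorem tendsto_real [NumberField k] [NumberField E] {f : X → k} {x : k}
    (h : AE (SI E) F (fun n => algebraMap k E (f n)) (algebraMap k E x)) (τ : k →+* ℝ) :
    Tendsto (fun n => τ (f n)) F (𝓝 (τ x)) := by
  obtain ⟨w, hw⟩ : ∃ w : E →+* ℂ, w.comp (algebraMap k E) = Complex.ofRealHom.comp τ := by
    let _ := (Complex.ofRealHom.comp τ).toAlgebra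
    obtain ⟨w⟩ : Nonempty (E →ₐ[k] ℂ) :=
      ⟨IsAlgClosed.lift (R := k) (S := E) (M := ℂ)⟩
    exact ⟨w.toRingHom, w.comp_algebraMap⟩
  have h1 := (AE_SI.mp h) w
  rw [tendsto_iff_norm_sub_tendsto_zero]
  refine h1.congr fun n => ?_
  have e : ∀ y : k, w (algebraMap k E y) = ((τ y : ℝ) : ℂ) := fun y => RingHom.congr_fun hw y
  rw [e, e, ← Complex.ofReal_sub, Complex.norm_real]

end si

section mq

variable {k E X : Type} [Field k] [Field E] [Algebra k E] {a b c : kˣ} {F : Filter X}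

/-- The coordinates of a matrix. -/
def crd (E : Type) [Field E] [Algebra k E] (a b : kˣ) :
    MQ E a b →ₗ[E] (Fin 3 × Fin 3 × Fin 4 → E) :=
  LinearMap.pi fun t => (q0L t.2.2).comp (Matrix.entryLinearMap E _ t.1 t.2.1)

theorem crd_apply (m : MQ E a b) (t : Fin 3 × Fin 3 × Fin 4) :
    crd E a b m t = q0L t.2.2 (m t.1 t.2.1) := rfl

theorem crd_inj {m : MQ E a b} (h : crd E a b m = 0) : m = 0 := by
  ext i j
  · exact congrFun h (i, j, 0)
  · exact congrFun h (i, j, 1)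
  · exact congrFun h (i, j, 2)
  · exact congrFun h (i, j, 3)

theorem crd_le (w : E →+* ℂ) (m : MQ E a b) (t : Fin 3 × Fin 3 × Fin 4) :
    ‖w (crd E a b m t)‖ ≤ mnm w m := by
  obtain ⟨i, j, l⟩ := t
  have h1 : ‖w (crd E a b m (i, j, l))‖ ≤ qnm w (m i j) := by
    rw [crd_apply, E6H.qnm]
    have := norm_nonneg (w (m i j).re)
    have := norm_nonneg (w (m i j).imI)
    have := norm_nonneg (w (m i j).imJ)
    have := norm_nonneg (w (m i j).imK)
    fin_cases l
    · change ‖w (m i j).re‖ ≤ _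
      linarith
    · change ‖w (m i j).imI‖ ≤ _
      linarith
    · change ‖w (m i j).imJ‖ ≤ _
      linarith
    · change ‖w (m i j).imK‖ ≤ _
      linarith
  refine h1.trans ?_
  rw [mnm]
  have h2 : ∀ i, 0 ≤ ∑ j, qnm w (m i j) := fun i =>
    Finset.sum_nonneg fun j _ => E6H.qnm_nonneg _ _
  exact (Finset.single_le_sum (f := fun j => qnm w (m i j))
    (fun j _ => E6H.qnm_nonneg _ _) (Finset.mem_univ j)).trans
    (Finset.single_le_sum (f := fun i => ∑ j, qnm w (m i j)) (fun i _ => h2 i)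
      (Finset.mem_univ i))

theorem mnm_nonneg (w : E →+* ℂ) (m : MQ E a b) : 0 ≤ mnm w m :=
  Finset.sum_nonneg fun _ _ => Finset.sum_nonneg fun _ _ => E6H.qnm_nonneg _ _

/-- The limits of matrices. -/
theorem AV_mq {f : X → MQ E a b} {u : MQ E a b}
    (h : ∀ w : E →+* ℂ, Tendsto (fun n => mnm w (f n - u)) F (𝓝 0)) : AV (SI E) F f u := by
  refine AV.of_inj (crd E a b) (V := ⊤) (fun y _ => crd_inj) (Eventually.of_forall fun _ => trivial)
    trivial ?_
  refine AV.of_basis (Pi.basisFun E _) fun t => ?_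
  simp only [Pi.basisFun_repr]
  rw [AE_SI]
  intro w
  refine squeeze_zero (fun n => norm_nonneg _) (fun n => ?_) (h w)
  rw [← map_sub, ← Pi.sub_apply, ← map_sub]
  exact crd_le w _ t

theorem qnm_star (w : E →+* ℂ) (q : Qt (up E a) (up E b)) : qnm w (star q) = qnm w q := by
  simp [E6H.qnm]

theorem qnm_coe (w : E →+* ℂ) (x : E) :
    qnm w (algebraMap E (Qt (up E a) (up E b)) x) = ‖w x‖ := by
  simp [E6H.qnm, QuaternionAlgebra.algebraMap_eq]

theorem mnm_mat_le (w : E →+* ℂ) (x : AlbL E a b c) : mnm w (Alb.mat x) ≤ 2 * nm w x := by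
  have h1 := E6H.qnm_nonneg w x.x1.fst
  have h2 := E6H.qnm_nonneg w x.x1.snd
  have h3 := E6H.qnm_nonneg w x.x2.fst
  have h4 := E6H.qnm_nonneg w x.x2.snd
  have h5 := E6H.qnm_nonneg w x.x3.fst
  have h6 := E6H.qnm_nonneg w x.x3.snd
  have h7 := norm_nonneg (w x.d1)
  have h8 := norm_nonneg (w x.d2)
  have h9 := norm_nonneg (w x.d3)
  have e : mnm w (Alb.mat x) = ‖w x.d1‖ + ‖w x.d2‖ + ‖w x.d3‖ +
      2 * (qnm w x.x1.fst + qnm w x.x2.fst + qnm w x.x3.fst) := by
    rw [mnm, Fin.sum_univ_three, Fin.sum_univ_three, Fin.sum_univ_three, Fin.sum_univ_three]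
    change qnm w (algebraMap E _ x.d1) + qnm w x.x3.fst + qnm w (star x.x2.fst) +
      (qnm w (star x.x3.fst) + qnm w (algebraMap E _ x.d2) + qnm w x.x1.fst) +
      (qnm w x.x2.fst + qnm w (star x.x1.fst) + qnm w (algebraMap E _ x.d3)) = _
    rw [qnm_coe, qnm_coe, qnm_coe, qnm_star, qnm_star, qnm_star]
    ring
  rw [e, E6H.nm]
  linarith

/-- The limits of vectors. -/
theorem AV_vec {f : X → AlbL E a b c} {u : AlbL E a b c} (hV : ∀ n, InVs (f n)) (hu : InVs u)
    (h : ∀ w : E →+* ℂ, Tendsto (fun n => nm w (f n - u)) F (𝓝 0)) : AV (SI E) F f u := by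
  refine AV.of_mat (Eventually.of_forall hV) hu (AV_mq fun w => ?_)
  have h1 := (h w).const_mul 2
  rw [mul_zero] at h1
  refine squeeze_zero (fun n => mnm_nonneg _ _) (fun n => ?_) h1
  have e : Alb.mat (f n) - Alb.mat u = Alb.mat (f n - u) := by
    rw [← matL_apply, ← matL_apply, ← map_sub]
    rfl
  rw [e]
  exact mnm_mat_le w _

end mq

end Vale.Agent.P011.E6W.H541
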