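import Vale.Agent.P011.Pow.CentT

/-!
The tensor product of a division algebra with a quaternion algebra which is split at all the places
of `Tdiv` has no place in `Tdiv`.
-/

open Module TensorProduct NumberField IsDedekindDomain

set_option linter.unusedSectionVars false

namespace Vale.Agent.P011.E6W.H541

open Vale.Agent.P011.Arith Vale.Agent.P011.Even Vale.Agent.P011.One Vale.Agent.P011.Pow

variable {k K : Type} [Field k] [NumberField k] [Field K] [NumberField K] [Algebra k K]
  {D B : Type} [DivisionRing D] [Algebra K D] [FiniteDimensional K D] [DivisionRing B]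
  [Algebra K B]

/-- If an algebra remains a division algebra at a place, so do its subalgebras. -/
theorem tdiv_sub (ι : D →ₐ[K] B) {p : Pl k} (hp : p ∈ Tdiv k K B) : p ∈ Tdiv k K D := by
  obtain ⟨v, rfl, φ, hdiv⟩ := hp
  refine ⟨v, rfl, φ, ?_⟩
  let _ : Algebra K (v.adicCompletion k) := (φ : K →+* v.adicCompletion k).toAlgebra
  let J : v.adicCompletion k ⊗[K] D →ₐ[v.adicCompletion k] v.adicCompletion k ⊗[K] B :=
    Algebra.TensorProduct.map (AlgHom.id _ _) ι
  have hJ : Function.Injective J :=
    Module.Flat.lTensor_preserves_injective_linearMap (M := v.adicCompletion k)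
      ι.toLinearMap ι.injective
  exact unit_of_inj (R := v.adicCompletion k) (J : _ →+* _) hJ hdiv

/-- An algebra with a square root of an element which is a local square. -/
theorem not_tdiv {v : HeightOneSpectrum (𝓞 k)} {a : kˣ} (ha : a ∈ LS (v.valuation k)) {i : B}
    (hi : i * i = algebraMap K B (algebraMap k K a)) (hiK : ∀ t : K, algebraMap K B t ≠ i) :
    (Sum.inl v : Pl k) ∉ Tdiv k K B := by
  rintro ⟨v', hv', φ, hdiv⟩
  obtain rfl : v = v' := Sum.inl_injective hv'
  obtain ⟨θ, hθ⟩ := (isSquare_iff v a).mpr ha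
  let _ : Algebra K (v.adicCompletion k) := (φ : K →+* v.adicCompletion k).toAlgebra
  -- a functional which separates `i` from the scalars
  obtain ⟨f, hf, hf1⟩ := Submodule.exists_dual_map_eq_bot_of_notMem (R := K) (M := B)
    (p := Submodule.span K {1}) (x := i) (by
      rw [Submodule.mem_span_singleton]
      rintro ⟨t, ht⟩
      apply hiK t
      rw [Algebra.algebraMap_eq_smul_one, ht]) inferInstance
  have hf1 : f 1 = 0 := by
    have h : f 1 ∈ (Submodule.span K {(1 : B)}).map f :=
      ⟨1, Submodule.mem_span_singleton_self 1, rfl⟩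
    rw [hf1] at h
    exact h
  have key : ∀ t : v.adicCompletion k,
      (1 : v.adicCompletion k) ⊗ₜ[K] i + t ⊗ₜ[K] (1 : B) ≠ 0 := by
    intro t h
    have h1 := congrArg (LinearMap.lTensor (v.adicCompletion k) f) h
    rw [map_add, map_zero, LinearMap.lTensor_tmul, LinearMap.lTensor_tmul, hf1,
      TensorProduct.tmul_zero, add_zero] at h1
    have h2 := congrArg (TensorProduct.rid K (v.adicCompletion k)) h1
    rw [map_zero, TensorProduct.rid_tmul] at h2
    exact hf ((smul_eq_zero.mp h2).resolve_right one_ne_zero)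
  have hprod : ((1 : v.adicCompletion k) ⊗ₜ[K] i + (-θ) ⊗ₜ[K] (1 : B)) *
      ((1 : v.adicCompletion k) ⊗ₜ[K] i + θ ⊗ₜ[K] (1 : B)) = 0 := by
    have e : (1 : v.adicCompletion k) ⊗ₜ[K] (i * i) = (θ * θ) ⊗ₜ[K] (1 : B) := by
      rw [hi, Algebra.algebraMap_eq_smul_one, ← TensorProduct.smul_tmul, ← hθ]
      congr 1
      rw [Algebra.smul_def, mul_one]
      exact φ.commutes _
    rw [add_mul, mul_add, mul_add, Algebra.TensorProduct.tmul_mul_tmul,
      Algebra.TensorProduct.tmul_mul_tmul, Algebra.TensorProduct.tmul_mul_tmul,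
      Algebra.TensorProduct.tmul_mul_tmul, mul_one, one_mul, mul_one, one_mul, mul_one, mul_one,
      e, neg_mul, TensorProduct.neg_tmul, TensorProduct.neg_tmul]
    abel
  obtain ⟨u, hu⟩ := hdiv _ (key (-θ))
  rw [← hu] at hprod
  exact key θ ((Units.mul_right_eq_zero u).mp hprod)

/-- **No place where the big algebra remains a division algebra.** -/
theorem tdiv_empty (ι : D →ₐ[K] B) {a : kˣ} {i : B}
    (hi : i * i = algebraMap K B (algebraMap k K a)) (hiK : ∀ t : K, algebraMap K B t ≠ i)
    (h : ∀ v : HeightOneSpectrum (𝓞 k), (Sum.inl v : Pl k) ∈ Tdiv k K D →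
      a ∈ LS (v.valuation k)) : Tdiv k K B = ∅ := by
  rw [Set.eq_empty_iff_forall_notMem]
  intro p hp
  have h1 := tdiv_sub ι hp
  obtain ⟨v, rfl, -⟩ := id hp
  exact not_tdiv (h v h1) hi hiK hp

/-- The finite set of primes for which the condition is needed. -/
theorem exists_T [StarRing K] [StarRing D] [Algebra.IsCentral K D] {n : ℕ} (hn : 2 ≤ n)
    (hdeg : finrank K D = n ^ 2) :
    ∃ T : Set (HeightOneSpectrum (𝓞 k)), T.Finite ∧
      ∀ v : HeightOneSpectrum (𝓞 k), (Sum.inl v : Pl k) ∈ Tdiv k K D → v ∈ T := by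
  let _ : Algebra k D := Algebra.compHom D (algebraMap k K)
  have : IsScalarTower k K D := IsScalarTower.of_algebraMap_eq fun _ => rfl
  exact ⟨Sum.inl ⁻¹' Tdiv k K D, (tdiv_finite hn hdeg).preimage Sum.inl_injective.injOn,
    fun _ hv => hv⟩

end Vale.Agent.P011.E6W.H541
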